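import Vale.Agent.Lib.P194.FreeSofic

/-!
# Reduction of stable finiteness to finite coefficient fields

If all `n × n` matrix rings over `F[G]` are directly finite for every finite field `F`, the same
holds over every field.  (The lemmas `int_isJacobsonRing` and `finite_of_field_of_finite_int` and
the overall shape of the argument follow the file `Vale/Agent/Lib/P201/FiniteFields.lean` of
helper3, copied here so that this development does not depend on it.)
-/

namespace Vale.Agent.Lib.P194

universe u v

theorem int_isJacobsonRing : IsJacobsonRing ℤ := by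
  rw [isJacobsonRing_iff_prime_eq]
  intro P hP
  by_cases hbot : P = ⊥
  · subst hbot
    rw [eq_bot_iff]
    intro n hn
    rw [Ideal.jacobson, Ideal.mem_sInf] at hn
    rw [Ideal.mem_bot]
    by_contra hne
    obtain ⟨p, hpn, hp⟩ := Nat.exists_infinite_primes (n.natAbs + 1)
    have hmax : (Ideal.span {(p : ℤ)}).IsMaximal :=
      PrincipalIdealRing.isMaximal_of_irreducible (Nat.prime_iff_prime_int.1 hp).irreducible
    have hmem := hn ⟨bot_le, hmax⟩
    rw [Ideal.mem_span_singleton] at hmem
    have h1 : p ∣ n.natAbs := Int.natCast_dvd.1 hmem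
    have h2 : 0 < n.natAbs := Int.natAbs_pos.2 hne
    have h3 := Nat.le_of_dvd h2 h1
    omega
  · have := hP.isMaximal hbot
    exact Ideal.jacobson_eq_self_of_isMaximal

theorem finite_of_field_of_finite_int (F : Type*) [Field F] [Module.Finite ℤ F] : Finite F := by
  obtain ⟨p, hp⟩ := CharP.exists F
  rcases CharP.char_is_prime_or_zero F p with hprime | hzero
  · have : Fact p.Prime := ⟨hprime⟩
    let _ : Algebra (ZMod p) F := ZMod.algebra F p
    have : Module.Finite (ZMod p) F := Module.Finite.of_restrictScalars_finite ℤ (ZMod p) F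
    exact Module.finite_of_finite (ZMod p)
  · subst hzero
    have : CharZero F := CharP.charP_to_charZero F
    exfalso
    have : Algebra.IsIntegral ℤ F := Algebra.IsIntegral.of_finite ℤ F
    apply Int.not_isField
    apply isField_of_isIntegral_of_isField (S := F)
    · intro a b hab
      simpa using hab
    · exact Field.toIsField F

/-- **Reduction to finite coefficient fields.**  If `M_n(F[G])` is directly finite for every
finite field `F`, then `M_n(K[G])` is directly finite for every field `K`. -/
theorem matrix_mul_eq_one_symm_of_finite_fields {G : Type u} [Group G] (K : Type v) [Field K]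
    (n : ℕ)
    (h : ∀ (F : Type v) [Field F] [Finite F],
      ∀ A B : Matrix (Fin n) (Fin n) (MonoidAlgebra F G), A * B = 1 → B * A = 1)
    (A B : Matrix (Fin n) (Fin n) (MonoidAlgebra K G)) (hAB : A * B = 1) : B * A = 1 := by
  classical
  by_contra hBA
  obtain ⟨i, j, g, hg⟩ : ∃ i j g, ((B * A - 1) i j).coeff g ≠ 0 := by
    by_contra hno
    push Not at hno
    apply hBA
    have h0 : B * A - 1 = 0 := by
      ext i j g
      exact hno i j g
    exact sub_eq_zero.mp h0
  let T : Finset K :=
    ((Finset.univ.biUnion fun i => Finset.univ.biUnion fun j =>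
        (A i j).coeff.support.image (A i j).coeff) ∪
      (Finset.univ.biUnion fun i => Finset.univ.biUnion fun j =>
        (B i j).coeff.support.image (B i j).coeff)) ∪
    {(((B * A - 1) i j).coeff g)⁻¹}
  let R : Subalgebra ℤ K := Algebra.adjoin ℤ (T : Set K)
  have hFT : Algebra.FiniteType ℤ R :=
    (Subalgebra.fg_iff_finiteType R).1 (Subalgebra.fg_adjoin_finset T)
  have hmemA : ∀ i j g, (A i j).coeff g ∈ R := by
    intro i j g
    by_cases hg : g ∈ (A i j).coeff.support
    · apply Algebra.subset_adjoin
      have : (A i j).coeff g ∈ T := by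
        apply Finset.mem_union_left
        apply Finset.mem_union_left
        exact Finset.mem_biUnion.mpr ⟨i, Finset.mem_univ _, Finset.mem_biUnion.mpr
          ⟨j, Finset.mem_univ _, Finset.mem_image_of_mem _ hg⟩⟩
      exact this
    · rw [Finsupp.notMem_support_iff.1 hg]; exact zero_mem R
  have hmemB : ∀ i j g, (B i j).coeff g ∈ R := by
    intro i j g
    by_cases hg : g ∈ (B i j).coeff.support
    · apply Algebra.subset_adjoin
      have : (B i j).coeff g ∈ T := by
        apply Finset.mem_union_left
        apply Finset.mem_union_right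
        exact Finset.mem_biUnion.mpr ⟨i, Finset.mem_univ _, Finset.mem_biUnion.mpr
          ⟨j, Finset.mem_univ _, Finset.mem_image_of_mem _ hg⟩⟩
      exact this
    · rw [Finsupp.notMem_support_iff.1 hg]; exact zero_mem R
  have hinv : (((B * A - 1) i j).coeff g)⁻¹ ∈ R := by
    apply Algebra.subset_adjoin
    have : (((B * A - 1) i j).coeff g)⁻¹ ∈ T := by
      apply Finset.mem_union_right
      simp
    exact this
  obtain ⟨m, hm⟩ := Ideal.exists_maximal R
  let _ := Ideal.Quotient.field m
  have hFT' : Algebra.FiniteType ℤ (R ⧸ m) :=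
    Algebra.FiniteType.of_surjective (Ideal.Quotient.mkₐ ℤ m) Ideal.Quotient.mk_surjective
  have hJ : IsJacobsonRing ℤ := int_isJacobsonRing
  have hMF : Module.Finite ℤ (R ⧸ m) := finite_of_finite_type_of_isJacobsonRing ℤ (R ⧸ m)
  have hfin : Finite (R ⧸ m) := finite_of_field_of_finite_int _
  have hDF := h (R ⧸ m)
  let ι : R →+* K := R.val.toRingHom
  have hιinj : Function.Injective ι := Subtype.val_injective
  have hliftA : ∀ i j, ∃ a : MonoidAlgebra R G, MonoidAlgebra.mapRingHom G ι a = A i j := by
    intro i j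
    have : A i j ∈ Set.range (MonoidAlgebra.map (M := G) (ι : R →+ K)) := by
      rw [MonoidAlgebra.range_map]
      intro g
      exact ⟨⟨(A i j).coeff g, hmemA i j g⟩, rfl⟩
    exact this
  have hliftB : ∀ i j, ∃ a : MonoidAlgebra R G, MonoidAlgebra.mapRingHom G ι a = B i j := by
    intro i j
    have : B i j ∈ Set.range (MonoidAlgebra.map (M := G) (ι : R →+ K)) := by
      rw [MonoidAlgebra.range_map]
      intro g
      exact ⟨⟨(B i j).coeff g, hmemB i j g⟩, rfl⟩
    exact this
  choose AR hAR using hliftA
  choose BR hBR using hliftB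
  let AM : Matrix (Fin n) (Fin n) (MonoidAlgebra R G) := Matrix.of AR
  let BM : Matrix (Fin n) (Fin n) (MonoidAlgebra R G) := Matrix.of BR
  have hinj : Function.Injective (MonoidAlgebra.mapRingHom G ι) :=
    MonoidAlgebra.map_injective (ι : R →+ K) hιinj
  have hAM : (MonoidAlgebra.mapRingHom G ι).mapMatrix AM = A := by
    ext1 i j
    exact hAR i j
  have hBM : (MonoidAlgebra.mapRingHom G ι).mapMatrix BM = B := by
    ext1 i j
    exact hBR i j
  have hinjM : Function.Injective ((MonoidAlgebra.mapRingHom G ι).mapMatrix :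
      Matrix (Fin n) (Fin n) (MonoidAlgebra R G) → Matrix (Fin n) (Fin n) (MonoidAlgebra K G)) :=
    Matrix.map_injective hinj
  have hprodR : AM * BM = 1 := by
    apply hinjM
    rw [map_mul, hAM, hBM, hAB, map_one]
  let π : R →+* R ⧸ m := Ideal.Quotient.mk m
  have hbar : (MonoidAlgebra.mapRingHom G π).mapMatrix AM *
      (MonoidAlgebra.mapRingHom G π).mapMatrix BM = 1 := by
    rw [← map_mul, hprodR, map_one]
  have hbar' := hDF _ _ hbar
  have hzero : (MonoidAlgebra.mapRingHom G π).mapMatrix (BM * AM - 1) = 0 := by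
    rw [map_sub, map_mul, hbar', map_one, sub_self]
  have h1 : π (((BM * AM - 1) i j).coeff g) = 0 := by
    have h2 := congrFun (congrFun hzero i) j
    have h3 : MonoidAlgebra.mapRingHom G π ((BM * AM - 1) i j) = 0 := h2
    rw [← MonoidAlgebra.coeff_mapRingHom, h3]
    rfl
  have h4 : ι (((BM * AM - 1) i j).coeff g) = ((B * A - 1) i j).coeff g := by
    rw [← MonoidAlgebra.coeff_mapRingHom]
    have h5 : MonoidAlgebra.mapRingHom G ι ((BM * AM - 1) i j) = (B * A - 1) i j := by
      have h6 : (MonoidAlgebra.mapRingHom G ι).mapMatrix (BM * AM - 1) = B * A - 1 := by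
        rw [map_sub, map_mul, hAM, hBM, map_one]
      exact congrFun (congrFun h6 i) j
    rw [h5]
  have h7 : ((BM * AM - 1) i j).coeff g * ⟨(((B * A - 1) i j).coeff g)⁻¹, hinv⟩ = 1 := by
    apply hιinj
    rw [map_mul, h4, map_one]
    exact mul_inv_cancel₀ hg
  have h8 : π (((BM * AM - 1) i j).coeff g) * π ⟨(((B * A - 1) i j).coeff g)⁻¹, hinv⟩ = 1 := by
    rw [← map_mul, h7, map_one]
  rw [h1, zero_mul] at h8
  exact zero_ne_one h8

/-- Free-by-sofic groups: stable finiteness over every field. -/
theorem matrix_mul_eq_one_symm_of_free_by_sofic_field {K : Type v} [Field K] {G : Type u}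
    [Group G] (N : Subgroup G) [N.Normal] [IsFreeGroup N]
    (hQ : ∀ (F : Finset (G ⧸ N)) (ε : ℝ), 0 < ε →
      ∃ (m : ℕ) (σ : G ⧸ N → Equiv.Perm (Fin m)), 0 < m ∧
      (∀ g ∈ F, ∀ h ∈ F,
        ((Finset.univ.filter fun x => σ (g * h) x ≠ σ g (σ h x)).card : ℝ) ≤ ε * m) ∧
      (∀ g ∈ F, g ≠ 1 → ((Finset.univ.filter fun x => σ g x = x).card : ℝ) ≤ ε * m))
    (n : ℕ) (A B : Matrix (Fin n) (Fin n) (MonoidAlgebra K G)) (hAB : A * B = 1) : B * A = 1 := by
  refine matrix_mul_eq_one_symm_of_finite_fields K n (fun F _ _ A B hAB => ?_) A B hAB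
  obtain ⟨p, hp⟩ := CharP.exists F
  have hprime : p.Prime :=
    (CharP.char_is_prime_or_zero F p).resolve_right (CharP.char_ne_zero_of_finite F p)
  have : Fact p.Prime := ⟨hprime⟩
  exact matrix_mul_eq_one_symm_of_free_by_sofic p N hQ n A B hAB

end Vale.Agent.Lib.P194
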