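import Vale.Agent.Lib.P194.ResidualP

/-!
# Free groups are residually finite `p`-groups

For a prime `p`, the integer matrices `[[1 + m², m], [m, 1]]`, with `m` running over distinct
nonzero multiples of `p`, freely generate a free subgroup of the group of invertible integer
`2 × 2` matrices congruent to `1` modulo `p` (a ping-pong argument on integer vectors).  Reducing
modulo `p ^ s` gives, for every nontrivial element of a free group, a homomorphism to a finite
`p`-group not killing it.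
-/

namespace Vale.Agent.Lib.P194

universe u

/-- The matrix `[[1 + m², m], [m, 1]]`. -/
def sanovMat (m : ℤ) : Matrix (Fin 2) (Fin 2) ℤ := !![1 + m * m, m; m, 1]

/-- The inverse matrix `[[1, -m], [-m, 1 + m²]]`. -/
def sanovInv (m : ℤ) : Matrix (Fin 2) (Fin 2) ℤ := !![1, -m; -m, 1 + m * m]

lemma sanovMat_mul_inv (m : ℤ) : sanovMat m * sanovInv m = 1 := by
  ext i j
  fin_cases i <;> fin_cases j <;>
    simp [sanovMat, sanovInv, Matrix.mul_apply, Fin.sum_univ_two] <;> ring

lemma sanovInv_mul_mat (m : ℤ) : sanovInv m * sanovMat m = 1 := by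
  ext i j
  fin_cases i <;> fin_cases j <;>
    simp [sanovMat, sanovInv, Matrix.mul_apply, Fin.sum_univ_two] <;> ring

/-- The matrix `sanovMat m` as a unit of the matrix ring. -/
def sanovUnit (m : ℤ) : (Matrix (Fin 2) (Fin 2) ℤ)ˣ :=
  ⟨sanovMat m, sanovInv m, sanovMat_mul_inv m, sanovInv_mul_mat m⟩

/-- The action of a letter on a pair of integers. -/
def stepVec (b : Bool) (m : ℤ) (x : ℤ × ℤ) : ℤ × ℤ :=
  cond b ((1 + m * m) * x.1 + m * x.2, m * x.1 + x.2) (x.1 - m * x.2, -m * x.1 + (1 + m * m) * x.2)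

/-- The ping-pong sets. -/
def InvSet (b : Bool) (m : ℤ) (x : ℤ × ℤ) : Prop :=
  cond b (|x.1 - m * x.2| < |x.2|) (|x.2 + m * x.1| < |x.1|)

lemma key_abs (k a b : ℤ) (hk : 2 ≤ |k|) (hab : |b| < |a|) : |a| < |k * a + b| := by
  have h1 : |k * a| = |k| * |a| := abs_mul k a
  have h2 : |k * a| ≤ |k * a + b| + |b| := by
    have h := abs_sub (k * a + b) b
    simpa using h
  have h3 : 2 * |a| ≤ |k| * |a| := mul_le_mul_of_nonneg_right hk (abs_nonneg a)
  linarith

lemma invSet_stepVec_iff_true (m u v : ℤ) :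
    InvSet true m (stepVec true m (u, v)) ↔ |u| < |m * u + v| := by
  simp only [InvSet, stepVec, cond_true]
  have h : (1 + m * m) * u + m * v - m * (m * u + v) = u := by ring
  rw [h]

lemma invSet_stepVec_iff_false (m u v : ℤ) :
    InvSet false m (stepVec false m (u, v)) ↔ |v| < |u - m * v| := by
  simp only [InvSet, stepVec, cond_false]
  have h : -m * u + (1 + m * m) * v + m * (u - m * v) = v := by ring
  rw [h]

lemma invSet_start (b : Bool) (m : ℤ) (hm : 2 ≤ |m|) : InvSet b m (stepVec b m (1, 0)) := by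
  cases b
  · rw [invSet_stepVec_iff_false]; simp
  · rw [invSet_stepVec_iff_true]
    simp only [mul_one, add_zero, abs_one]
    linarith

lemma invSet_step (b b' : Bool) (m m' : ℤ) (x : ℤ × ℤ) (hm : 2 ≤ |m|) (hm' : 2 ≤ |m'|)
    (hbb : b = b' ∨ 2 ≤ |m' - m|) (hx : InvSet b m x) : InvSet b' m' (stepVec b' m' x) := by
  obtain ⟨u, v⟩ := x
  cases b <;> cases b'
  · -- inverse letter after inverse letter
    rw [invSet_stepVec_iff_false]
    simp only [InvSet, cond_false] at hx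
    have h1 : |u| < |v| := by
      have h := key_abs (-m) u (v + m * u) (by rwa [abs_neg]) hx
      have e : -m * u + (v + m * u) = v := by ring
      rwa [e] at h
    have h2 := key_abs (-m') v u (by rwa [abs_neg]) h1
    have e : -m' * v + u = u - m' * v := by ring
    rwa [e] at h2
  · -- positive letter after inverse letter
    rw [invSet_stepVec_iff_true]
    simp only [InvSet, cond_false] at hx
    rcases hbb with h | h
    · exact absurd h (by decide)
    · have h2 := key_abs (m' - m) u (v + m * u) h hx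
      have e : (m' - m) * u + (v + m * u) = m' * u + v := by ring
      rwa [e] at h2
  · -- inverse letter after positive letter
    rw [invSet_stepVec_iff_false]
    simp only [InvSet, cond_true] at hx
    rcases hbb with h | h
    · exact absurd h (by decide)
    · have h' : 2 ≤ |m - m'| := by rwa [abs_sub_comm]
      have h2 := key_abs (m - m') v (u - m * v) h' hx
      have e : (m - m') * v + (u - m * v) = u - m' * v := by ring
      rwa [e] at h2
  · -- positive letter after positive letter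
    rw [invSet_stepVec_iff_true]
    simp only [InvSet, cond_true] at hx
    have h1 : |v| < |u| := by
      have h := key_abs m v (u - m * v) hm hx
      have e : m * v + (u - m * v) = u := by ring
      rwa [e] at h
    exact key_abs m' u v hm' h1

lemma not_invSet_start (b : Bool) (m : ℤ) (hm : 2 ≤ |m|) : ¬ InvSet b m (1, 0) := by
  cases b
  · simp only [InvSet, cond_false, mul_one, zero_add, abs_one, not_lt]
    linarith
  · simp [InvSet]

variable {α : Type u}

/-- The vector obtained by letting a word act on `(1, 0)`. -/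
def wordVec (c : α → ℤ) : List (α × Bool) → ℤ × ℤ
  | [] => (1, 0)
  | l :: L => stepVec l.2 (c l.1) (wordVec c L)

lemma wordVec_invSet (c : α → ℤ) : ∀ (L : List (α × Bool)) (l : α × Bool),
    FreeGroup.IsReduced (l :: L) → (∀ l' ∈ l :: L, 2 ≤ |c l'.1|) →
    (∀ l₁ ∈ l :: L, ∀ l₂ ∈ l :: L, l₁.1 ≠ l₂.1 → 2 ≤ |c l₁.1 - c l₂.1|) →
    InvSet l.2 (c l.1) (wordVec c (l :: L)) := by
  intro L
  induction L with
  | nil =>
    intro l _ h2 _
    exact invSet_start l.2 (c l.1) (h2 l (List.mem_cons_self ..))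
  | cons l' L ih =>
    intro l hred h2 hdiff
    rw [FreeGroup.isReduced_cons_cons] at hred
    have hprev := ih l' hred.2 (fun l'' hl'' => h2 l'' (List.mem_cons_of_mem _ hl''))
      (fun l₁ h₁ l₂ h₂ => hdiff l₁ (List.mem_cons_of_mem _ h₁) l₂ (List.mem_cons_of_mem _ h₂))
    have hl : l ∈ l :: l' :: L := List.mem_cons_self ..
    have hl' : l' ∈ l :: l' :: L := List.mem_cons_of_mem _ (List.mem_cons_self ..)
    refine invSet_step l'.2 l.2 (c l'.1) (c l.1) _ (h2 l' hl') (h2 l hl) ?_ hprev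
    by_cases h : l.1 = l'.1
    · exact Or.inl (hred.1 h).symm
    · exact Or.inr (hdiff l hl l' hl' h)

lemma wordVec_ne_start (c : α → ℤ) (L : List (α × Bool)) (hL : L ≠ [])
    (hred : FreeGroup.IsReduced L) (h2 : ∀ l' ∈ L, 2 ≤ |c l'.1|)
    (hdiff : ∀ l₁ ∈ L, ∀ l₂ ∈ L, l₁.1 ≠ l₂.1 → 2 ≤ |c l₁.1 - c l₂.1|) :
    wordVec c L ≠ (1, 0) := by
  obtain ⟨l, L', rfl⟩ := List.exists_cons_of_ne_nil hL
  intro h
  have h1 := wordVec_invSet c L' l hred h2 hdiff
  rw [h] at h1
  exact not_invSet_start l.2 (c l.1) (h2 l (List.mem_cons_self ..)) h1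


/-- The homomorphism from the free group to invertible integer matrices. -/
noncomputable def sanovHom (c : α → ℤ) : FreeGroup α →* (Matrix (Fin 2) (Fin 2) ℤ)ˣ :=
  FreeGroup.lift fun a => sanovUnit (c a)

lemma sanovHom_mk_mulVec (c : α → ℤ) (L : List (α × Bool)) :
    ((sanovHom c (FreeGroup.mk L) : (Matrix (Fin 2) (Fin 2) ℤ)ˣ) :
      Matrix (Fin 2) (Fin 2) ℤ).mulVec ![1, 0] = ![(wordVec c L).1, (wordVec c L).2] := by
  induction L with
  | nil =>
    have h : (FreeGroup.mk ([] : List (α × Bool))) = 1 := rfl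
    rw [h, map_one, Units.val_one, Matrix.one_mulVec]
    rfl
  | cons l L ih =>
    have h : FreeGroup.mk (l :: L) = FreeGroup.mk [l] * FreeGroup.mk L := by
      rw [FreeGroup.mul_mk]; rfl
    rw [h, map_mul, Units.val_mul, ← Matrix.mulVec_mulVec, ih]
    obtain ⟨a, b⟩ := l
    cases b
    · have h1 : sanovHom c (FreeGroup.mk [(a, false)]) = (sanovUnit (c a))⁻¹ := by
        simp [sanovHom, FreeGroup.lift_mk]
      rw [h1]
      have h2 : (((sanovUnit (c a))⁻¹ : (Matrix (Fin 2) (Fin 2) ℤ)ˣ) :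
          Matrix (Fin 2) (Fin 2) ℤ) = sanovInv (c a) := rfl
      rw [h2]
      ext i
      fin_cases i <;>
        simp [sanovInv, wordVec, stepVec, Matrix.mulVec, dotProduct, Fin.sum_univ_two] <;> ring
    · have h1 : sanovHom c (FreeGroup.mk [(a, true)]) = sanovUnit (c a) := by
        simp [sanovHom, FreeGroup.lift_mk]
      rw [h1]
      have h2 : ((sanovUnit (c a) : (Matrix (Fin 2) (Fin 2) ℤ)ˣ) :
          Matrix (Fin 2) (Fin 2) ℤ) = sanovMat (c a) := rfl
      rw [h2]
      ext i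
      fin_cases i <;>
        simp [sanovMat, wordVec, stepVec, Matrix.mulVec, dotProduct, Fin.sum_univ_two]

lemma sanovHom_ne_one [DecidableEq α] (c : α → ℤ) (w : FreeGroup α) (hw : w ≠ 1)
    (h2 : ∀ l' ∈ w.toWord, 2 ≤ |c l'.1|)
    (hdiff : ∀ l₁ ∈ w.toWord, ∀ l₂ ∈ w.toWord, l₁.1 ≠ l₂.1 → 2 ≤ |c l₁.1 - c l₂.1|) :
    sanovHom c w ≠ 1 := by
  intro h
  have hL : w.toWord ≠ [] := fun h0 => hw (FreeGroup.toWord_eq_nil_iff.mp h0)
  have h1 := wordVec_ne_start c w.toWord hL FreeGroup.isReduced_toWord h2 hdiff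
  have h3 := sanovHom_mk_mulVec c w.toWord
  rw [FreeGroup.mk_toWord, h, Units.val_one, Matrix.one_mulVec] at h3
  apply h1
  have e1 := congrFun h3 0
  have e2 := congrFun h3 1
  simp only [Matrix.cons_val_zero, Matrix.cons_val_one] at e1 e2
  exact Prod.ext e1.symm e2.symm


section Congruence

variable {R : Type*} [Ring R]

/-- Congruence to `1` modulo the natural number `q`. -/
def CongOne (q : ℕ) (u : R) : Prop := ∃ y : R, u = 1 + (q : R) * y

lemma congOne_one (q : ℕ) : CongOne q (1 : R) := ⟨0, by simp⟩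

lemma congOne_mul (q : ℕ) {u u' : R} (hu : CongOne q u) (hu' : CongOne q u') :
    CongOne q (u * u') := by
  obtain ⟨y, rfl⟩ := hu
  obtain ⟨y', rfl⟩ := hu'
  refine ⟨y + y' + y * ((q : R) * y'), ?_⟩
  have hc : y * (q : R) = (q : R) * y := ((Nat.cast_commute q y).eq).symm
  calc (1 + (q : R) * y) * (1 + (q : R) * y')
      = 1 + (q : R) * y + (q : R) * y' + (q : R) * y * ((q : R) * y') := by noncomm_ring
    _ = 1 + (q : R) * (y + y' + y * ((q : R) * y')) := by noncomm_ring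

lemma congOne_pow (q : ℕ) {u : R} (hu : CongOne q u) (i : ℕ) : CongOne q (u ^ i) := by
  induction i with
  | zero => rw [pow_zero]; exact congOne_one q
  | succ i ih => rw [pow_succ]; exact congOne_mul q ih hu

lemma congOne_pow_prime (p j : ℕ) (u : R) (hp : CongOne p u) (hu : CongOne (p ^ j) u) :
    CongOne (p ^ (j + 1)) (u ^ p) := by
  obtain ⟨y, hy⟩ := hu
  have h : ∀ i : ℕ, ∃ z : R, u ^ i = 1 + (p : R) * z := fun i => congOne_pow p hp i
  choose z hz using h
  have hsum : ∑ i ∈ Finset.range p, u ^ i = (p : R) * (1 + ∑ i ∈ Finset.range p, z i) := by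
    rw [Finset.sum_congr rfl (fun i _ => hz i), Finset.sum_add_distrib, Finset.sum_const,
      Finset.card_range, nsmul_eq_mul, mul_one, ← Finset.mul_sum, mul_add, mul_one]
  have hgeo := mul_geom_sum u p
  refine ⟨y * (1 + ∑ i ∈ Finset.range p, z i), ?_⟩
  have h1 : u ^ p = 1 + (u - 1) * ∑ i ∈ Finset.range p, u ^ i := by rw [hgeo]; abel
  have h2 : u - 1 = ((p ^ j : ℕ) : R) * y := by rw [hy]; abel
  have hc : y * (p : R) = (p : R) * y := ((Nat.cast_commute p y).eq).symm
  rw [h1, h2, hsum]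
  congr 1
  rw [pow_succ, Nat.cast_mul, mul_assoc, mul_assoc, ← mul_assoc y, hc, mul_assoc]

lemma congOne_pow_prime_pow (p : ℕ) (u : R) (hp : CongOne p u) (s : ℕ) :
    CongOne (p ^ (s + 1)) (u ^ p ^ s) := by
  induction s with
  | zero => simpa using hp
  | succ s ih =>
    rw [pow_succ p s, pow_mul]
    exact congOne_pow_prime p (s + 1) _ (congOne_pow p hp _) ih

lemma congOne_map {S : Type*} [Ring S] (f : R →+* S) (q : ℕ) {u : R} (hu : CongOne q u) :
    CongOne q (f u) := by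
  obtain ⟨y, rfl⟩ := hu
  exact ⟨f y, by rw [map_add, map_one, map_mul, map_natCast]⟩

end Congruence

lemma congOne_sanovMat (p : ℕ) (k : ℤ) : CongOne p (sanovMat (p * k)) := by
  refine ⟨!![(p : ℤ) * k * k, k; k, 0], ?_⟩
  rw [← Matrix.diagonal_natCast]
  ext i j
  fin_cases i <;> fin_cases j <;>
    simp [sanovMat, Matrix.mul_apply, Fin.sum_univ_two] <;> ring

lemma congOne_sanovInv (p : ℕ) (k : ℤ) : CongOne p (sanovInv (p * k)) := by
  refine ⟨!![0, -k; -k, (p : ℤ) * k * k], ?_⟩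
  rw [← Matrix.diagonal_natCast]
  ext i j
  fin_cases i <;> fin_cases j <;>
    simp [sanovInv, Matrix.mul_apply, Fin.sum_univ_two] <;> ring


section Residual

variable (p : ℕ) [Fact p.Prime]

/-- Reduction of invertible integer matrices modulo `p ^ s`. -/
noncomputable def redHom (s : ℕ) :
    (Matrix (Fin 2) (Fin 2) ℤ)ˣ →* (Matrix (Fin 2) (Fin 2) (ZMod (p ^ s)))ˣ :=
  Units.map ((Int.castRingHom (ZMod (p ^ s))).mapMatrix :
    Matrix (Fin 2) (Fin 2) ℤ →+* Matrix (Fin 2) (Fin 2) (ZMod (p ^ s))).toMonoidHom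

omit [Fact p.Prime] in
lemma natCast_pow_eq_zero (s : ℕ) :
    ((p ^ s : ℕ) : Matrix (Fin 2) (Fin 2) (ZMod (p ^ s))) = 0 := by
  rw [← Matrix.diagonal_natCast, ZMod.natCast_self]
  exact Matrix.diagonal_zero

/-- **Free groups are residually finite `p`-groups.** -/
theorem resP_freeGroup (α : Type u) : ResP p (FreeGroup α) := by
  classical
  intro w hw
  obtain ⟨gens, hgens⟩ : ∃ gens : List α, gens = w.toWord.map Prod.fst := ⟨_, rfl⟩
  let k : α → ℤ := fun a => (List.idxOf a gens : ℤ) + 1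
  let c : α → ℤ := fun a => (p : ℤ) * k a
  have hp2 : (2 : ℤ) ≤ p := by exact_mod_cast (Fact.out : p.Prime).two_le
  have hp0 : (0 : ℤ) ≤ p := by positivity
  have h2 : ∀ l' ∈ w.toWord, 2 ≤ |c l'.1| := by
    intro l' _
    have hk : (1 : ℤ) ≤ k l'.1 := by
      have : (0 : ℤ) ≤ (List.idxOf l'.1 gens : ℤ) := by positivity
      simp only [k]; linarith
    have h : (2 : ℤ) ≤ c l'.1 := by
      calc (2 : ℤ) ≤ p := hp2
        _ = p * 1 := (mul_one _).symm
        _ ≤ p * k l'.1 := mul_le_mul_of_nonneg_left hk hp0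
    exact le_trans h (le_abs_self _)
  have hdiff : ∀ l₁ ∈ w.toWord, ∀ l₂ ∈ w.toWord, l₁.1 ≠ l₂.1 → 2 ≤ |c l₁.1 - c l₂.1| := by
    intro l₁ h₁ l₂ _ hne
    have hmem : l₁.1 ∈ gens := by rw [hgens]; exact List.mem_map_of_mem h₁
    have hidx : List.idxOf l₁.1 gens ≠ List.idxOf l₂.1 gens :=
      fun h => hne ((List.idxOf_inj hmem).mp h)
    have hk : k l₁.1 - k l₂.1 ≠ 0 := by
      intro h0
      apply hidx
      have h : (List.idxOf l₁.1 gens : ℤ) = List.idxOf l₂.1 gens := by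
        simp only [k] at h0; linarith
      exact_mod_cast h
    have h1 : 1 ≤ |k l₁.1 - k l₂.1| := Int.one_le_abs hk
    have e : c l₁.1 - c l₂.1 = (p : ℤ) * (k l₁.1 - k l₂.1) := by simp only [c]; ring
    rw [e, abs_mul, abs_of_nonneg hp0]
    calc (2 : ℤ) ≤ p := hp2
      _ = p * 1 := (mul_one _).symm
      _ ≤ p * |k l₁.1 - k l₂.1| := mul_le_mul_of_nonneg_left h1 hp0
  have hne := sanovHom_ne_one c w hw h2 hdiff
  obtain ⟨i, j, hij⟩ : ∃ i j, ((sanovHom c w : (Matrix (Fin 2) (Fin 2) ℤ)ˣ) :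
      Matrix (Fin 2) (Fin 2) ℤ) i j ≠ (1 : Matrix (Fin 2) (Fin 2) ℤ) i j := by
    by_contra hno
    push Not at hno
    exact hne (Units.ext (Matrix.ext hno))
  obtain ⟨N, hN⟩ : ∃ N : ℤ, N = ((sanovHom c w : (Matrix (Fin 2) (Fin 2) ℤ)ˣ) :
      Matrix (Fin 2) (Fin 2) ℤ) i j - (1 : Matrix (Fin 2) (Fin 2) ℤ) i j := ⟨_, rfl⟩
  have hN0 : N ≠ 0 := by rw [hN]; exact sub_ne_zero.mpr hij
  obtain ⟨s, hs⟩ : ∃ s : ℕ, s = N.natAbs := ⟨_, rfl⟩
  let ψ : FreeGroup α →* (Matrix (Fin 2) (Fin 2) (ZMod (p ^ s)))ˣ :=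
    (redHom p s).comp (sanovHom c)
  have hψw : ψ w ≠ 1 := by
    intro h1
    have h3 : ((ψ w : (Matrix (Fin 2) (Fin 2) (ZMod (p ^ s)))ˣ) :
        Matrix (Fin 2) (Fin 2) (ZMod (p ^ s))) i j =
        (1 : Matrix (Fin 2) (Fin 2) (ZMod (p ^ s))) i j := by rw [h1]; rfl
    have h4 : ((ψ w : (Matrix (Fin 2) (Fin 2) (ZMod (p ^ s)))ˣ) :
        Matrix (Fin 2) (Fin 2) (ZMod (p ^ s))) i j =
        ((((sanovHom c w : (Matrix (Fin 2) (Fin 2) ℤ)ˣ) :
          Matrix (Fin 2) (Fin 2) ℤ) i j : ℤ) : ZMod (p ^ s)) := rfl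
    have h5 : (1 : Matrix (Fin 2) (Fin 2) (ZMod (p ^ s))) i j =
        (((1 : Matrix (Fin 2) (Fin 2) ℤ) i j : ℤ) : ZMod (p ^ s)) := by
      by_cases hij' : i = j <;> simp [Matrix.one_apply, hij']
    have h6 : ((N : ℤ) : ZMod (p ^ s)) = 0 := by
      rw [hN, Int.cast_sub, ← h4, ← h5, h3, sub_self]
    have hpos : NeZero (p ^ s) := ⟨pow_ne_zero _ (Fact.out : p.Prime).ne_zero⟩
    rw [ZMod.intCast_zmod_eq_zero_iff_dvd, Int.natCast_dvd] at h6
    have h7 : p ^ s ≤ N.natAbs := Nat.le_of_dvd (Int.natAbs_pos.mpr hN0) h6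
    have h8 : s < p ^ s := Nat.lt_pow_self (Fact.out : p.Prime).one_lt
    omega
  have hcong : ∀ x : FreeGroup α, CongOne p ((ψ x : (Matrix (Fin 2) (Fin 2) (ZMod (p ^ s)))ˣ) :
      Matrix (Fin 2) (Fin 2) (ZMod (p ^ s))) := by
    intro x
    induction x using FreeGroup.induction_on with
    | C1 => rw [map_one, Units.val_one]; exact congOne_one p
    | of a =>
      have e : ((ψ (FreeGroup.of a) : (Matrix (Fin 2) (Fin 2) (ZMod (p ^ s)))ˣ) :
          Matrix (Fin 2) (Fin 2) (ZMod (p ^ s))) =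
          (Int.castRingHom (ZMod (p ^ s))).mapMatrix (sanovMat (↑p * k a)) := by
        simp only [ψ, MonoidHom.comp_apply, sanovHom, FreeGroup.lift_apply_of]
        rfl
      rw [e]
      exact congOne_map ((Int.castRingHom (ZMod (p ^ s))).mapMatrix) p (congOne_sanovMat p (k a))
    | inv_of a _ =>
      have e : (((ψ (FreeGroup.of a))⁻¹ : (Matrix (Fin 2) (Fin 2) (ZMod (p ^ s)))ˣ) :
          Matrix (Fin 2) (Fin 2) (ZMod (p ^ s))) =
          (Int.castRingHom (ZMod (p ^ s))).mapMatrix (sanovInv (↑p * k a)) := by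
        simp only [ψ, MonoidHom.comp_apply, sanovHom, FreeGroup.lift_apply_of]
        rfl
      rw [map_inv, e]
      exact congOne_map ((Int.castRingHom (ZMod (p ^ s))).mapMatrix) p (congOne_sanovInv p (k a))
    | mul x y hx hy => rw [map_mul, Units.val_mul]; exact congOne_mul p hx hy
  have hpgroup : IsPGroup p ψ.range := by
    rintro ⟨g, x, rfl⟩
    refine ⟨s, ?_⟩
    apply Subtype.ext
    apply Units.ext
    obtain ⟨y, hy⟩ := congOne_pow_prime_pow p _ (hcong x) s
    change ((ψ x : (Matrix (Fin 2) (Fin 2) (ZMod (p ^ s)))ˣ) :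
      Matrix (Fin 2) (Fin 2) (ZMod (p ^ s))) ^ p ^ s = 1
    rw [hy, pow_succ, Nat.cast_mul, natCast_pow_eq_zero, zero_mul, zero_mul, add_zero]
  refine ⟨ULift.{u} ψ.range, inferInstance, inferInstance,
    hpgroup.of_equiv MulEquiv.ulift.symm,
    (MulEquiv.ulift.symm : ψ.range ≃* ULift.{u} ψ.range).toMonoidHom.comp ψ.rangeRestrict, ?_⟩
  intro h1
  apply hψw
  have h2' : ψ.rangeRestrict w = 1 := congrArg ULift.down h1
  exact congrArg Subtype.val h2'

omit [Fact p.Prime] in
lemma resP_of_mulEquiv {N N' : Type u} [Group N] [Group N'] (e : N ≃* N') (h : ResP p N') :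
    ResP p N := by
  intro x hx
  obtain ⟨P, i1, i2, hP, f, hf⟩ := h (e x) (fun h0 => hx ((MulEquiv.map_eq_one_iff e).mp h0))
  exact ⟨P, i1, i2, hP, f.comp e.toMonoidHom, hf⟩

/-- Every free group (in the sense of `IsFreeGroup`) is residually a finite `p`-group. -/
theorem resP_of_isFreeGroup (N : Type u) [Group N] [IsFreeGroup N] : ResP p N :=
  resP_of_mulEquiv p (IsFreeGroup.toFreeGroup N) (resP_freeGroup p _)

end Residual

end Vale.Agent.Lib.P194
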