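import Vale.Agent.Lib.P194.Sofic
import Vale.Agent.Lib.P194.FreeResP

/-!
# Free kernels and sofic quotients

* sofic groups (Elek–Szabó formulation) have stably finite group algebras over fields;
* stable finiteness lifts along quotients by free normal subgroups (in characteristic `p`);
* hence `K[G]` is stably finite for free-by-sofic groups `G`, `char K = p`, and more generally for
  groups with a normal series with residually finite `p`-group factors and sofic top quotient.
-/

namespace Vale.Agent.Lib.P194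

open MonoidAlgebra

universe u

/-- **Elek–Szabó**: all matrix rings over the group algebra of a sofic group over a field are
directly finite.  Soficity is stated as: for every finite `F ⊆ Q` and `ε > 0` there are `m > 0`
and a map `σ : Q → Sym(m)` such that `σ (g h)` and `σ g ∘ σ h` differ on at most `ε m` points for
`g, h ∈ F`, and `σ g` has at most `ε m` fixed points for `1 ≠ g ∈ F`. -/
theorem matrix_mul_eq_one_symm_of_sofic {K : Type*} [Field K] {Q : Type*} [Group Q]
    (hQ : ∀ (F : Finset Q) (ε : ℝ), 0 < ε → ∃ (m : ℕ) (σ : Q → Equiv.Perm (Fin m)), 0 < m ∧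
      (∀ g ∈ F, ∀ h ∈ F,
        ((Finset.univ.filter fun x => σ (g * h) x ≠ σ g (σ h x)).card : ℝ) ≤ ε * m) ∧
      (∀ g ∈ F, g ≠ 1 → ((Finset.univ.filter fun x => σ g x = x).card : ℝ) ≤ ε * m))
    {n : ℕ} (A B : Matrix (Fin n) (Fin n) (MonoidAlgebra K Q)) (hAB : A * B = 1) : B * A = 1 := by
  classical
  refine matrix_mul_eq_one_symm_of_approx (fun F ε hε => ?_) A B hAB
  obtain ⟨m, σ, hm, hmult, hfix⟩ :=
    hQ (F ∪ Finset.image₂ (fun g h => g⁻¹ * h) F F) (ε / 2) (by positivity)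
  have hmpos : (0 : ℝ) < m := by exact_mod_cast hm
  have hle : ε / 2 * m ≤ ε * m := mul_le_mul_of_nonneg_right (by linarith) hmpos.le
  refine ⟨m, σ, hm, fun g hg h hh => ?_, fun g hg h hh hne => ?_⟩
  · exact le_trans (hmult g (Finset.mem_union_left _ hg) h (Finset.mem_union_left _ hh)) hle
  · have ht : g⁻¹ * h ∈ F ∪ Finset.image₂ (fun g h => g⁻¹ * h) F F :=
      Finset.mem_union_right _ (Finset.mem_image₂_of_mem hg hh)
    have ht1 : g⁻¹ * h ≠ 1 := fun h1 => hne (inv_mul_eq_one.mp h1)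
    have hsub : (Finset.univ.filter fun x => σ g x = σ h x) ⊆
        (Finset.univ.filter fun x => σ (g * (g⁻¹ * h)) x ≠ σ g (σ (g⁻¹ * h) x)) ∪
        (Finset.univ.filter fun x => σ (g⁻¹ * h) x = x) := by
      intro x hx
      have hx' := (Finset.mem_filter.mp hx).2
      by_cases hc : σ (g * (g⁻¹ * h)) x = σ g (σ (g⁻¹ * h) x)
      · refine Finset.mem_union_right _ (Finset.mem_filter.mpr ⟨Finset.mem_univ _, ?_⟩)
        rw [mul_inv_cancel_left, ← hx'] at hc
        exact ((σ g).injective hc).symm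
      · exact Finset.mem_union_left _ (Finset.mem_filter.mpr ⟨Finset.mem_univ _, hc⟩)
    have h1 := hmult g (Finset.mem_union_left _ hg) _ ht
    have h2 := hfix _ ht ht1
    have h3 : ((Finset.univ.filter fun x => σ g x = σ h x).card : ℝ) ≤
        ((Finset.univ.filter fun x => σ (g * (g⁻¹ * h)) x ≠ σ g (σ (g⁻¹ * h) x)).card : ℝ) +
        ((Finset.univ.filter fun x => σ (g⁻¹ * h) x = x).card : ℝ) := by
      exact_mod_cast le_trans (Finset.card_le_card hsub) (Finset.card_union_le _ _)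
    linarith

/-- Direct finiteness of matrix rings lifts along the quotient by a free normal subgroup, for
coefficient rings of prime characteristic. -/
theorem matrix_mul_eq_one_symm_of_free_kernel (p : ℕ) [Fact p.Prime] {K : Type*} [CommRing K]
    [CharP K p] {G : Type u} [Group G] (N : Subgroup G) [N.Normal] [IsFreeGroup N] (n : ℕ)
    (hQ : ∀ A B : Matrix (Fin n) (Fin n) (MonoidAlgebra K (G ⧸ N)), A * B = 1 → B * A = 1)
    (A B : Matrix (Fin n) (Fin n) (MonoidAlgebra K G)) (hAB : A * B = 1) : B * A = 1 := by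
  have hres : ResP p (QuotientGroup.mk' N).ker :=
    resP_of_mulEquiv p (MulEquiv.subgroupCongr (QuotientGroup.ker_mk' N)) (resP_of_isFreeGroup p N)
  exact matrix_mul_eq_one_symm_of_residual (QuotientGroup.mk' N)
    (eq_zero_of_forall_mem_kerAdd_pow (K := K) p _ hres) n hQ A B hAB

/-- Free-by-sofic groups: stable finiteness in characteristic `p`. -/
theorem matrix_mul_eq_one_symm_of_free_by_sofic (p : ℕ) [Fact p.Prime] {K : Type*} [Field K]
    [CharP K p] {G : Type u} [Group G] (N : Subgroup G) [N.Normal] [IsFreeGroup N]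
    (hQ : ∀ (F : Finset (G ⧸ N)) (ε : ℝ), 0 < ε →
      ∃ (m : ℕ) (σ : G ⧸ N → Equiv.Perm (Fin m)), 0 < m ∧
      (∀ g ∈ F, ∀ h ∈ F,
        ((Finset.univ.filter fun x => σ (g * h) x ≠ σ g (σ h x)).card : ℝ) ≤ ε * m) ∧
      (∀ g ∈ F, g ≠ 1 → ((Finset.univ.filter fun x => σ g x = x).card : ℝ) ≤ ε * m))
    (n : ℕ) (A B : Matrix (Fin n) (Fin n) (MonoidAlgebra K G)) (hAB : A * B = 1) : B * A = 1 :=
  matrix_mul_eq_one_symm_of_free_kernel p N n
    (fun A B hAB => matrix_mul_eq_one_symm_of_sofic hQ A B hAB) A B hAB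

/-- Normal series with residually finite `p`-group factors and sofic top quotient. -/
theorem matrix_mul_eq_one_symm_of_series_sofic (p : ℕ) [Fact p.Prime] {K : Type*} [Field K]
    [CharP K p] {G : Type u} [Group G] (r : ℕ)
    (N : ℕ → Subgroup G) (hnorm : ∀ i, (N i).Normal) (h0 : N 0 = ⊥)
    (hQ : ∀ (F : Finset (G ⧸ N r)) (ε : ℝ), 0 < ε →
      ∃ (m : ℕ) (σ : G ⧸ N r → Equiv.Perm (Fin m)), 0 < m ∧
      (∀ g ∈ F, ∀ h ∈ F,
        ((Finset.univ.filter fun x => σ (g * h) x ≠ σ g (σ h x)).card : ℝ) ≤ ε * m) ∧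
      (∀ g ∈ F, g ≠ 1 → ((Finset.univ.filter fun x => σ g x = x).card : ℝ) ≤ ε * m))
    (hres : ∀ i < r, N i ≤ N (i + 1) ∧ ∀ x ∈ N (i + 1), x ∉ N i →
      ∃ L : Subgroup G, N i ≤ L ∧ L ≤ N (i + 1) ∧ (L.subgroupOf (N (i + 1))).Normal ∧
        (∃ k : ℕ, L.relIndex (N (i + 1)) = p ^ k) ∧ x ∉ L)
    (n : ℕ) (A B : Matrix (Fin n) (Fin n) (MonoidAlgebra K G)) (hAB : A * B = 1) : B * A = 1 :=
  matrix_mul_eq_one_symm_of_series_top p r N hnorm h0 hres n
    (fun A B hAB => matrix_mul_eq_one_symm_of_sofic hQ A B hAB) A B hAB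

end Vale.Agent.Lib.P194
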