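import Mathlib

/-!
# One-sided localisation of direct finiteness to a subgroup

If `a * b = 1` in the group algebra `K[G]` and the support of `a` lies in a left coset `g H`
of a subgroup `H` whose group algebra `K[H]` is directly finite, then `b * a = 1`.
-/

namespace Vale.Agent.Lib.P194

open MonoidAlgebra

variable {K G : Type*} [Semiring K] [Group G]

/-- Restriction to a subgroup is linear over the subgroup algebra (on the left). -/
lemma comap_map_mul (H : Subgroup G) (a : MonoidAlgebra K H) (x : MonoidAlgebra K G) :
    comapDomain (Subtype.val : H → G) Subtype.val_injective (mapDomain (Subtype.val : H → G) a * x)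
      = a * comapDomain (Subtype.val : H → G) Subtype.val_injective x := by
  ext k
  rw [coeff_mul_apply_left, coeff_comapDomain, Finsupp.comapDomain_apply, coeff_mul_apply_left]
  simp only [mapDomain, coeff_ofCoeff]
  rw [Finsupp.sum_mapDomain_index_inj Subtype.val_injective]
  simp

theorem mul_eq_one_symm_of_support_subset (H : Subgroup G)
    (hH : ∀ x y : MonoidAlgebra K H, x * y = 1 → y * x = 1)
    (a b : MonoidAlgebra K G) (hsupp : ∀ x ∈ a.coeff.support, x ∈ H) (hab : a * b = 1) :
    b * a = 1 := by
  have hι : Function.Injective (Subtype.val : H → G) := Subtype.val_injective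
  have ha : mapDomain (Subtype.val : H → G) (comapDomain (Subtype.val : H → G) hι a) = a :=
    mapDomain_comapDomain (by intro x hx; exact ⟨⟨x, hsupp x hx⟩, rfl⟩) hι
  have h1 : comapDomain (Subtype.val : H → G) hι a * comapDomain (Subtype.val : H → G) hι b = 1 := by
    rw [← comap_map_mul, ha, hab, one_def, one_def]
    exact comapDomain_single_map (Subtype.val : H → G) hι 1 1
  have h2 := hH _ _ h1
  have h3 : mapDomain (Subtype.val : H → G) (comapDomain (Subtype.val : H → G) hι b) * a = 1 := by
    have := congrArg (mapDomainRingHom K H.subtype) h2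
    rw [map_mul, map_one] at this
    simp only [mapDomainRingHom_apply] at this
    rw [← this]
    congr 1
    exact ha.symm
  have h4 : mapDomain (Subtype.val : H → G) (comapDomain (Subtype.val : H → G) hι b) = b := by
    calc mapDomain (Subtype.val : H → G) (comapDomain (Subtype.val : H → G) hι b)
        = mapDomain (Subtype.val : H → G) (comapDomain (Subtype.val : H → G) hι b) * (a * b) := by
          rw [hab, mul_one]
      _ = b := by rw [← mul_assoc, h3, one_mul]
  rw [← h4]; exact h3

theorem mul_eq_one_symm_of_support_subset_coset (H : Subgroup G)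
    (hH : ∀ x y : MonoidAlgebra K H, x * y = 1 → y * x = 1)
    (a b : MonoidAlgebra K G) (g : G) (hsupp : ∀ x ∈ a.coeff.support, g⁻¹ * x ∈ H)
    (hab : a * b = 1) : b * a = 1 := by
  have key := mul_eq_one_symm_of_support_subset H hH (single g⁻¹ 1 * a) (b * single g 1) ?_ ?_
  · calc b * a = b * (single g (1 : K) * single g⁻¹ 1) * a := by
          rw [single_mul_single, mul_inv_cancel, mul_one, ← one_def, mul_one]
      _ = (b * single g 1) * (single g⁻¹ 1 * a) := by simp only [mul_assoc]
      _ = 1 := key
  · intro x hx
    rw [Finsupp.mem_support_iff, coeff_single_mul_apply] at hx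
    have hx' : g * x ∈ a.coeff.support := by
      rw [Finsupp.mem_support_iff]
      intro h0
      apply hx
      simp [h0]
    simpa using hsupp _ hx'
  · calc single g⁻¹ (1 : K) * a * (b * single g 1) = single g⁻¹ 1 * (a * b) * single g 1 := by
          simp only [mul_assoc]
      _ = 1 := by rw [hab]; simp [one_def]

end Vale.Agent.Lib.P194
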