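import Mathlib

/-!
# Group algebras in characteristic `p`: kernels of finite `p`-group extensions are nilpotent

Let `K` be a commutative ring of prime characteristic `p` and `φ : G →* Q` a group homomorphism
whose kernel is a finite `p`-group.  Then the kernel of the induced ring homomorphism
`K[G] → K[Q]` is a nilpotent ideal (`kerAdd_pow_eq_bot`).  Consequently direct finiteness
(and direct finiteness of all matrix rings) passes from `K[Q]` to `K[G]`.
-/

namespace Vale.Agent.Lib.P194

open MonoidAlgebra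
open scoped Pointwise IsMulCommutative

universe u

variable {K : Type*} [CommRing K] {G Q : Type*} [Group G] [Group Q]

/-- The kernel of the ring homomorphism `K[G] → K[Q]` induced by `φ`, as an additive submonoid. -/
noncomputable def kerAdd (K : Type*) [CommRing K] {G Q : Type*} [Group G] [Group Q] (φ : G →* Q) :
    AddSubmonoid (MonoidAlgebra K G) :=
  (RingHom.ker (mapDomainRingHom K φ)).toAddSubmonoid

lemma mem_kerAdd (φ : G →* Q) (x : MonoidAlgebra K G) :
    x ∈ kerAdd K φ ↔ mapDomain φ x = 0 := Iff.rfl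

/-- Generators of the kernel: differences of two monomials in the same fibre of `φ`. -/
def kerGen (K : Type*) [CommRing K] {G Q : Type*} [Group G] [Group Q] (φ : G →* Q) :
    Set (MonoidAlgebra K G) :=
  {x | ∃ (g g' : G) (r : K), φ g = φ g' ∧ x = single g r - single g' r}

lemma kerAdd_le_closure (φ : G →* Q) : kerAdd K φ ≤ AddSubmonoid.closure (kerGen K φ) := by
  intro x hx
  rw [mem_kerAdd] at hx
  have h0 : mapDomain (Function.invFun φ) (mapDomain φ x) = 0 := by rw [hx, mapDomain_zero]
  have h1 : x = x.coeff.sum fun g r => single g r - single (Function.invFun φ (φ g)) r := by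
    have e1 : x.coeff.sum (fun g r => (single g r : MonoidAlgebra K G)) = x := sum_coeff_single x
    have e2 : x.coeff.sum (fun g r => (single (Function.invFun φ (φ g)) r : MonoidAlgebra K G)) = 0 := by
      rw [← h0]
      ext k
      simp [mapDomain, Finsupp.mapDomain, Finsupp.sum_sum_index]
    rw [Finsupp.sum_sub, e1, e2, sub_zero]
  rw [h1]
  refine AddSubmonoid.sum_mem _ fun g _ => AddSubmonoid.subset_closure ?_
  exact ⟨g, Function.invFun φ (φ g), x.coeff g, (Function.invFun_eq ⟨g, rfl⟩).symm, rfl⟩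

lemma addSubmonoid_pow_mono {R : Type*} [Semiring R] {M N : AddSubmonoid R} (h : M ≤ N) (k : ℕ) :
    M ^ k ≤ N ^ k := by
  induction k with
  | zero => simp
  | succ k ih => rw [pow_succ, pow_succ]; exact AddSubmonoid.mul_le_mul ih h

lemma kerGen_pow_subset (φ : G →* Q) [IsMulCommutative φ.ker]
    (J : Ideal (MonoidAlgebra K φ.ker)) (hJ : ∀ z : φ.ker, single z (1 : K) - 1 ∈ J) (j : ℕ) :
    (kerGen K φ) ^ j ⊆ {y | ∃ w ∈ J ^ j, ∃ (g : G) (r : K),
      y = mapDomainRingHom K φ.ker.subtype w * single g r} := by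
  induction j with
  | zero =>
    intro y hy
    rw [pow_zero, Set.mem_one] at hy
    subst hy
    exact ⟨1, by simp, 1, 1, by simp [one_def]⟩
  | succ j ih =>
    intro y hy
    rw [pow_succ] at hy
    obtain ⟨x, hx, s, hs, rfl⟩ := Set.mem_mul.mp hy
    obtain ⟨w, hw, g, r, rfl⟩ := ih hx
    obtain ⟨h, h', r', hφ, rfl⟩ := hs
    have hz : g * (h * h'⁻¹) * g⁻¹ ∈ φ.ker := by
      rw [MonoidHom.mem_ker]; simp [hφ]
    refine ⟨w * (single ⟨_, hz⟩ 1 - 1), ?_, g * h', r * r', ?_⟩
    · rw [pow_succ]; exact Ideal.mul_mem_mul hw (hJ _)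
    · have e1 : mapDomainRingHom K φ.ker.subtype (single (⟨_, hz⟩ : φ.ker) (1 : K) - 1)
          = single (g * (h * h'⁻¹) * g⁻¹) (1 : K) - 1 := by
        rw [map_sub, map_one]; simp [mapDomainRingHom_apply, mapDomain_single]
      rw [map_mul, e1, mul_assoc, mul_assoc]
      congr 1
      rw [mul_sub, sub_mul, single_mul_single, single_mul_single, single_mul_single, one_mul,
        one_mul]
      congr 2
      group

theorem kerAdd_pow_eq_bot_of_comm (p : ℕ) [Fact p.Prime] [CharP K p] (φ : G →* Q)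
    [Finite φ.ker] (hp : IsPGroup p φ.ker) (hc : ∀ x ∈ φ.ker, ∀ y ∈ φ.ker, x * y = y * x) :
    ∃ m : ℕ, kerAdd K φ ^ m = ⊥ := by
  have : IsMulCommutative φ.ker := ⟨⟨fun a b => Subtype.ext (hc a a.2 b b.2)⟩⟩
  set J : Ideal (MonoidAlgebra K φ.ker) :=
    Ideal.span (Set.range fun z : φ.ker => single z (1 : K) - 1) with hJdef
  have hJfg : J.FG := Submodule.fg_span (Set.finite_range _)
  have : CharP (MonoidAlgebra K φ.ker) p :=
    charP_of_injective_algebraMap (R := K) (A := MonoidAlgebra K φ.ker) single_right_injective p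
  have hJnil : J ≤ nilradical _ := by
    rw [hJdef, Ideal.span_le]
    rintro _ ⟨z, rfl⟩
    obtain ⟨n, hn⟩ := IsPGroup.iff_card.mp hp
    have hnil : IsNilpotent (single z (1 : K) - 1 : MonoidAlgebra K φ.ker) := by
      refine ⟨p ^ n, ?_⟩
      rw [sub_pow_char_pow, single_pow, one_pow, one_pow, ← hn, pow_card_eq_one', one_def,
        sub_self]
    exact mem_nilradical.mpr hnil
  obtain ⟨m, hm⟩ := hJfg.isNilpotent_iff_le_nilradical.mpr hJnil
  refine ⟨m, ?_⟩
  rw [eq_bot_iff]
  calc kerAdd K φ ^ m ≤ AddSubmonoid.closure (kerGen K φ) ^ m :=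
        addSubmonoid_pow_mono (kerAdd_le_closure φ) m
    _ = AddSubmonoid.closure (kerGen K φ ^ m) := AddSubmonoid.closure_pow _ _
    _ ≤ ⊥ := by
      rw [AddSubmonoid.closure_le]
      intro y hy
      obtain ⟨w, hw, g, r, rfl⟩ :=
        kerGen_pow_subset φ J (fun z => Ideal.subset_span ⟨z, rfl⟩) m hy
      rw [hm] at hw
      have hw0 : w = 0 := by simpa using hw
      simp [hw0]


lemma map_mem_pow_of_map_mem {R S : Type*} [Semiring R] [Semiring S] (f : R →+* S)
    (M : AddSubmonoid R) (N : AddSubmonoid S) (h : ∀ x ∈ M, f x ∈ N) (k : ℕ) :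
    ∀ x ∈ M ^ k, f x ∈ N ^ k := by
  induction k with
  | zero =>
    intro x hx
    rw [pow_zero] at hx ⊢
    obtain ⟨n, rfl⟩ := AddSubmonoid.mem_one.mp hx
    exact AddSubmonoid.mem_one.mpr ⟨n, by simp⟩
  | succ k ih =>
    intro x hx
    rw [pow_succ] at hx ⊢
    refine AddSubmonoid.mul_induction_on hx (fun m hm n hn => ?_) (fun a b ha hb => ?_)
    · rw [map_mul]; exact AddSubmonoid.mul_mem_mul (ih m hm) (h n hn)
    · rw [map_add]; exact add_mem ha hb

lemma kerAdd_pow_comp {H : Type*} [Group H] (π : G →* H) (ψ : H →* Q) (m₁ m₂ : ℕ)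
    (h₁ : kerAdd K ψ ^ m₁ = ⊥) (h₂ : kerAdd K π ^ m₂ = ⊥) :
    kerAdd K (ψ.comp π) ^ (m₁ * m₂) = ⊥ := by
  have step : kerAdd K (ψ.comp π) ^ m₁ ≤ kerAdd K π := by
    intro x hx
    have key := map_mem_pow_of_map_mem (mapDomainRingHom K π) (kerAdd K (ψ.comp π)) (kerAdd K ψ)
      ?_ m₁ x hx
    · rw [h₁] at key
      exact key
    · intro y hy
      rw [mem_kerAdd] at hy ⊢
      rw [← hy, mapDomainRingHom_apply]
      ext k
      simp [mapDomain, Finsupp.mapDomain_comp]
  rw [eq_bot_iff, pow_mul, ← h₂]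
  exact addSubmonoid_pow_mono step m₂


theorem kerAdd_pow_eq_bot_aux (p : ℕ) [Fact p.Prime] [CharP K p] :
    ∀ (n : ℕ) (G : Type u) [Group G] (φ : G →* Q), Finite φ.ker → Nat.card φ.ker = n →
      IsPGroup p φ.ker → ∃ m : ℕ, kerAdd K φ ^ m = ⊥ := by
  intro n
  induction n using Nat.strong_induction_on with
  | _ n ih =>
    intro G _ φ hfin hcard hp
    by_cases htriv : φ.ker = ⊥
    · refine ⟨1, ?_⟩
      rw [pow_one, eq_bot_iff]
      intro x hx
      rw [mem_kerAdd] at hx
      have hinj : Function.Injective φ := (MonoidHom.ker_eq_bot_iff φ).mp htriv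
      have := mapDomain_injective hinj (hx.trans (mapDomain_zero (R := K) φ).symm)
      simpa using this
    · have hnt : Nontrivial φ.ker := (Subgroup.nontrivial_iff_ne_bot _).mpr htriv
      have hcn : Nontrivial (Subgroup.center φ.ker) := hp.center_nontrivial
      set Z : Subgroup G := (Subgroup.center φ.ker).map φ.ker.subtype with hZ
      have hZn : Z.Normal := inferInstance
      have hZle : Z ≤ φ.ker := Subgroup.map_subtype_le _
      have hkerπ : (QuotientGroup.mk' Z).ker = Z := QuotientGroup.ker_mk' Z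
      have hZfin : Finite Z := by
        rw [hZ]
        exact Set.Finite.image _ (Set.toFinite _)
      have h₂ : ∃ m₂ : ℕ, kerAdd K (QuotientGroup.mk' Z) ^ m₂ = ⊥ := by
        have hf : Finite (QuotientGroup.mk' Z).ker := by rw [hkerπ]; exact hZfin
        refine kerAdd_pow_eq_bot_of_comm p (QuotientGroup.mk' Z) ?_ ?_
        · rw [hkerπ]; exact hp.to_le hZle
        · rw [hkerπ]
          rintro x ⟨a, ha, rfl⟩ y ⟨b, hb, rfl⟩
          have := Subgroup.mem_center_iff.mp ha b
          have h2 := congrArg (Subtype.val) this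
          simpa using h2.symm
      have hkerψ : (QuotientGroup.lift Z φ hZle).ker = φ.ker.map (QuotientGroup.mk' Z) :=
        QuotientGroup.ker_lift Z φ hZle
      have hψfin : Finite (QuotientGroup.lift Z φ hZle).ker := by
        rw [hkerψ]
        exact Set.Finite.image _ (Set.toFinite _)
      have h₁ : ∃ m₁ : ℕ, kerAdd K (QuotientGroup.lift Z φ hZle) ^ m₁ = ⊥ := by
        refine ih (Nat.card (QuotientGroup.lift Z φ hZle).ker) ?_ (G ⧸ Z)
          (QuotientGroup.lift Z φ hZle) hψfin rfl ?_
        · rw [← hcard]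
          -- a surjective, non-injective map `φ.ker → ψ.ker`
          let f : φ.ker → (QuotientGroup.lift Z φ hZle).ker := fun x =>
            ⟨QuotientGroup.mk' Z x, by rw [hkerψ]; exact Subgroup.mem_map_of_mem _ x.2⟩
          have hfs : Function.Surjective f := by
            rintro ⟨y, hy⟩
            rw [hkerψ] at hy
            obtain ⟨x, hx, rfl⟩ := hy
            exact ⟨⟨x, hx⟩, rfl⟩
          have hfn : ¬ Function.Injective f := by
            intro hinj
            obtain ⟨a, ha⟩ := exists_ne (1 : Subgroup.center φ.ker)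
            have h1 : f (a : φ.ker) = f 1 := by
              apply Subtype.ext
              change QuotientGroup.mk' Z ((a : φ.ker) : G) = QuotientGroup.mk' Z ((1 : φ.ker) : G)
              have : ((a : φ.ker) : G) ∈ Z := ⟨(a : φ.ker), a.2, rfl⟩
              rw [Subgroup.coe_one, map_one]
              exact (QuotientGroup.eq_one_iff _).mpr this
            have h2 := hinj h1
            exact ha (Subtype.ext h2)
          let _ := Fintype.ofFinite φ.ker
          let _ := Fintype.ofFinite (QuotientGroup.lift Z φ hZle).ker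
          rw [Nat.card_eq_fintype_card, Nat.card_eq_fintype_card]
          exact Fintype.card_lt_of_surjective_not_injective f hfs hfn
        · rw [hkerψ]; exact hp.map _
      obtain ⟨m₁, h₁⟩ := h₁
      obtain ⟨m₂, h₂⟩ := h₂
      refine ⟨m₁ * m₂, ?_⟩
      have := kerAdd_pow_comp (K := K) (QuotientGroup.mk' Z) (QuotientGroup.lift Z φ hZle) m₁ m₂ h₁ h₂
      rwa [QuotientGroup.lift_comp_mk'] at this

/-- If the kernel of `φ : G →* Q` is a finite `p`-group and `K` has characteristic `p`, then the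
kernel of `K[G] → K[Q]` is a nilpotent ideal. -/
theorem kerAdd_pow_eq_bot (p : ℕ) [Fact p.Prime] [CharP K p] {G : Type u} [Group G] (φ : G →* Q)
    [Finite φ.ker] (hp : IsPGroup p φ.ker) : ∃ m : ℕ, kerAdd K φ ^ m = ⊥ :=
  kerAdd_pow_eq_bot_aux p _ G φ inferInstance rfl hp


lemma mul_eq_one_symm_of_isNilpotent {R : Type*} [Ring R] (a b : R) (hab : a * b = 1)
    (h : IsNilpotent (b * a - 1)) : b * a = 1 := by
  have hunit : IsUnit (b * a) := by
    have := h.isUnit_add_one
    simpa using this
  obtain ⟨u, hu⟩ := hunit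
  have hc : (↑u⁻¹ * b) * a = 1 := by rw [mul_assoc, ← hu, Units.inv_mul]
  have : (↑u⁻¹ * b) = b := by
    calc (↑u⁻¹ * b) = (↑u⁻¹ * b) * (a * b) := by rw [hab, mul_one]
      _ = b := by rw [← mul_assoc, hc, one_mul]
  rw [← this]; exact hc

theorem mul_eq_one_symm_of_kerAdd_pow (φ : G →* Q) (m : ℕ) (hm : kerAdd K φ ^ m = ⊥)
    (hQ : ∀ x y : MonoidAlgebra K Q, x * y = 1 → y * x = 1)
    (a b : MonoidAlgebra K G) (hab : a * b = 1) : b * a = 1 := by
  have h1 : mapDomainRingHom K φ a * mapDomainRingHom K φ b = 1 := by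
    rw [← map_mul, hab, map_one]
  have h2 := hQ _ _ h1
  have hn : b * a - 1 ∈ kerAdd K φ := by
    change mapDomainRingHom K φ (b * a - 1) = 0
    rw [map_sub, map_mul, h2, map_one, sub_self]
  have hpow : (b * a - 1) ^ m = 0 := by
    have := AddSubmonoid.pow_subset_pow (Set.pow_mem_pow (n := m) hn)
    rw [hm] at this
    simpa using this
  exact mul_eq_one_symm_of_isNilpotent a b hab ⟨m, hpow⟩

theorem matrix_mul_eq_one_symm_of_kerAdd_pow (φ : G →* Q) (m : ℕ) (hm : kerAdd K φ ^ m = ⊥)
    (n : ℕ)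
    (hQ : ∀ A B : Matrix (Fin n) (Fin n) (MonoidAlgebra K Q), A * B = 1 → B * A = 1)
    (A B : Matrix (Fin n) (Fin n) (MonoidAlgebra K G)) (hAB : A * B = 1) : B * A = 1 := by
  have h1 : (mapDomainRingHom K φ).mapMatrix A * (mapDomainRingHom K φ).mapMatrix B = 1 := by
    rw [← map_mul, hAB, map_one]
  have h2 := hQ _ _ h1
  have hN : ∀ i j, (B * A - 1) i j ∈ kerAdd K φ := by
    intro i j
    have h3 : (mapDomainRingHom K φ).mapMatrix (B * A - 1) = 0 := by
      rw [map_sub, map_mul, h2, map_one, sub_self]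
    have h4 := congrFun (congrFun h3 i) j
    change mapDomainRingHom K φ ((B * A - 1) i j) = 0
    simpa [RingHom.mapMatrix_apply, Matrix.map_apply] using h4
  have hpow : ∀ k : ℕ, ∀ i j, ((B * A - 1) ^ k) i j ∈ kerAdd K φ ^ k := by
    intro k
    induction k with
    | zero =>
      intro i j
      rw [pow_zero, pow_zero, Matrix.one_apply]
      split_ifs
      · exact ⟨1, by simp⟩
      · exact ⟨0, by simp⟩
    | succ k ih =>
      intro i j
      rw [pow_succ, pow_succ, Matrix.mul_apply]
      exact sum_mem fun l _ => AddSubmonoid.mul_mem_mul (ih i l) (hN l j)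
  have hzero : (B * A - 1) ^ m = 0 := by
    refine Matrix.ext fun i j => ?_
    have := hpow m i j
    rw [hm] at this
    simpa using this
  exact mul_eq_one_symm_of_isNilpotent A B hAB ⟨m, hzero⟩

end Vale.Agent.Lib.P194
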