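import Vale.Agent.Lib.P194.Series

/-!
# Residually finite top quotients

Group algebras of residually finite groups over a commutative ring are stably finite; combined
with the lifting theorem this gives stable finiteness of `K[G]`, `char K = p`, for groups with a
finite normal series with residually finite `p`-group factors and residually finite top quotient.
-/

namespace Vale.Agent.Lib.P194

open MonoidAlgebra

universe u

variable {K : Type*} [CommRing K] {G : Type u} [Group G]

/-- Residual finiteness, in terms of homomorphisms to finite groups. -/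
def ResF (Q : Type u) [Group Q] : Prop :=
  ∀ x : Q, x ≠ 1 → ∃ (P : Type u) (_ : Group P) (_ : Finite P), ∃ f : Q →* P, f x ≠ 1

lemma exists_map_ne_zero_fin {Q : Type u} [Group Q] (hQ : ResF Q)
    (y : MonoidAlgebra K Q) (hy : y ≠ 0) :
    ∃ (P : Type u) (_ : Group P) (_ : Finite P),
      ∃ ψ : Q →* P, mapDomainRingHom K ψ y ≠ 0 := by
  classical
  let I := {q : Q × Q // q.1 ∈ y.coeff.support ∧ q.2 ∈ y.coeff.support ∧ q.1 ≠ q.2}
  have hI : Finite I := by
    apply Finite.of_injective (fun q : I => ((⟨q.1.1, q.2.1⟩, ⟨q.1.2, q.2.2.1⟩) :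
      y.coeff.support × y.coeff.support))
    intro a b hab
    simp only [Prod.mk.injEq, Subtype.mk.injEq] at hab
    exact Subtype.ext (Prod.ext hab.1 hab.2)
  have h : ∀ q : I, ∃ (P : Type u) (_ : Group P) (_ : Finite P),
      ∃ f : Q →* P, f (q.1.1⁻¹ * q.1.2) ≠ 1 := fun q =>
    hQ _ (fun h0 => q.2.2.2 (inv_mul_eq_one.mp h0))
  choose P instG instF f hf using h
  refine ⟨∀ q, P q, inferInstance, inferInstance, MonoidHom.pi f, ?_⟩
  have hinj : Set.InjOn (MonoidHom.pi f) (y.coeff.support : Set Q) := by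
    intro s hs s' hs' hss'
    by_contra hne
    have h1 := congrFun hss' ⟨(s, s'), hs, hs', hne⟩
    apply hf ⟨(s, s'), hs, hs', hne⟩
    change f _ (s⁻¹ * s') = 1
    rw [map_mul, map_inv]
    change f _ s = f _ s' at h1
    rw [h1, inv_mul_cancel]
  obtain ⟨s₀, hs₀⟩ : ∃ s₀, s₀ ∈ y.coeff.support := by
    by_contra hempty
    apply hy
    ext s
    by_contra hs
    exact hempty ⟨s, Finsupp.mem_support_iff.mpr hs⟩
  intro h0
  have h2 : (mapDomain (MonoidHom.pi f) y).coeff (MonoidHom.pi f s₀) = y.coeff s₀ :=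
    Finsupp.mapDomain_apply' (y.coeff.support : Set Q) y.coeff subset_rfl hinj hs₀
  rw [mapDomainRingHom_apply] at h0
  rw [h0] at h2
  exact (Finsupp.mem_support_iff.mp hs₀) h2.symm

/-- Matrix rings over the group algebra of a finite group (commutative coefficients) are
directly finite. -/
lemma matrix_mul_eq_one_symm_of_finite {P : Type*} [Group P] [Finite P] (n : ℕ)
    (A B : Matrix (Fin n) (Fin n) (MonoidAlgebra K P)) (h : A * B = 1) : B * A = 1 := by
  have : IsStablyFiniteRing (MonoidAlgebra K P) :=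
    IsStablyFiniteRing.of_injective (Algebra.lmul K (MonoidAlgebra K P)) Algebra.lmul_injective
  exact mul_eq_one_comm.mp h

/-- Matrix rings over the group algebra of a residually finite group are directly finite. -/
theorem matrix_mul_eq_one_symm_of_resF {Q : Type u} [Group Q] (hQ : ResF Q) (n : ℕ)
    (A B : Matrix (Fin n) (Fin n) (MonoidAlgebra K Q)) (hAB : A * B = 1) : B * A = 1 := by
  by_contra hne
  obtain ⟨i, j, hij⟩ : ∃ i j, (B * A - 1) i j ≠ 0 := by
    by_contra hall
    push Not at hall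
    apply hne
    have h0 : B * A - 1 = 0 := Matrix.ext hall
    exact sub_eq_zero.mp h0
  obtain ⟨P, _, _, ψ, hψ⟩ := exists_map_ne_zero_fin (K := K) hQ _ hij
  have h1 : (mapDomainRingHom K ψ).mapMatrix A * (mapDomainRingHom K ψ).mapMatrix B = 1 := by
    rw [← map_mul, hAB, map_one]
  have h2 := matrix_mul_eq_one_symm_of_finite n _ _ h1
  have h3 : (mapDomainRingHom K ψ).mapMatrix (B * A - 1) = 0 := by
    rw [map_sub, map_mul, h2, map_one, sub_self]
  apply hψ
  have h4 := congrFun (congrFun h3 i) j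
  simpa [RingHom.mapMatrix_apply, Matrix.map_apply] using h4

/-- Residual finiteness of a quotient in terms of normal subgroups of finite index. -/
lemma resF_quotient (N : Subgroup G) [N.Normal]
    (h : ∀ x : G, x ∉ N → ∃ L : Subgroup G, L.Normal ∧ L.index ≠ 0 ∧ N ≤ L ∧ x ∉ L) :
    ResF (G ⧸ N) := by
  intro y hy
  obtain ⟨x, rfl⟩ := QuotientGroup.mk_surjective y
  have hx : x ∉ N := fun hx => hy ((QuotientGroup.eq_one_iff x).mpr hx)
  obtain ⟨L, hLn, hLi, hNL, hxL⟩ := h x hx
  have : L.FiniteIndex := ⟨hLi⟩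
  refine ⟨G ⧸ L, inferInstance, Subgroup.finite_quotient_of_finiteIndex,
    QuotientGroup.map N L (MonoidHom.id G) hNL, ?_⟩
  change (QuotientGroup.mk x : G ⧸ L) ≠ 1
  rw [ne_eq, QuotientGroup.eq_one_iff]
  exact hxL

/-- Stable finiteness of `K[G]`, `char K = p`, for groups with a finite normal series whose
factors are residually finite `p`-groups and whose top quotient is residually finite. -/
theorem matrix_mul_eq_one_symm_of_series_resF (p : ℕ) [Fact p.Prime] [CharP K p] (r : ℕ)
    (N : ℕ → Subgroup G) (hnorm : ∀ i, (N i).Normal) (h0 : N 0 = ⊥)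
    (hr : ∀ x : G, x ∉ N r → ∃ L : Subgroup G, L.Normal ∧ L.index ≠ 0 ∧ N r ≤ L ∧ x ∉ L)
    (hres : ∀ i < r, N i ≤ N (i + 1) ∧ ∀ x ∈ N (i + 1), x ∉ N i →
      ∃ L : Subgroup G, N i ≤ L ∧ L ≤ N (i + 1) ∧ (L.subgroupOf (N (i + 1))).Normal ∧
        (∃ k : ℕ, L.relIndex (N (i + 1)) = p ^ k) ∧ x ∉ L)
    (n : ℕ) (A B : Matrix (Fin n) (Fin n) (MonoidAlgebra K G)) (hAB : A * B = 1) :
    B * A = 1 :=
  matrix_mul_eq_one_symm_of_series_top p r N hnorm h0 hres n
    (fun A B h => matrix_mul_eq_one_symm_of_resF (resF_quotient (N r) hr) n A B h) A B hAB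

end Vale.Agent.Lib.P194
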