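import Vale.Agent.Lib.P194.NilKernel
import Vale.Agent.Lib.P194.Localize

/-!
# Residually `p`-finite kernels

Let `K` be a commutative ring of prime characteristic `p` and `φ : G →* Q` a group homomorphism
whose kernel is residually a finite `p`-group.  Then the kernel `I` of `K[G] → K[Q]` satisfies
`⋂ I ^ m = 0`, and therefore direct finiteness (of all matrix rings) passes from `K[Q]` to `K[G]`.
-/

namespace Vale.Agent.Lib.P194

open MonoidAlgebra
open scoped Pointwise

universe u v

variable {K : Type*} [CommRing K] {G : Type u} {Q : Type*} [Group G] [Group Q]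

/-- The set of elements `z - 1` of the group algebra, `z` a group element. -/
def unipSet (K : Type*) [CommRing K] (N : Type*) [Group N] : Set (MonoidAlgebra K N) :=
  {x | ∃ z : N, x = single z (1 : K) - 1}

lemma kerGen_pow_subset_unip (φ : G →* Q) (j : ℕ) :
    (kerGen K φ) ^ j ⊆ {y | ∃ w ∈ (unipSet K φ.ker) ^ j, ∃ (g : G) (r : K),
      y = mapDomainRingHom K φ.ker.subtype w * single g r} := by
  induction j with
  | zero =>
    intro y hy
    rw [pow_zero, Set.mem_one] at hy
    subst hy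
    exact ⟨1, by simp, 1, 1, by simp [one_def]⟩
  | succ j ih =>
    intro y hy
    rw [pow_succ] at hy
    obtain ⟨x, hx, s, hs, rfl⟩ := Set.mem_mul.mp hy
    obtain ⟨w, hw, g, r, rfl⟩ := ih hx
    obtain ⟨h, h', r', hφ, rfl⟩ := hs
    have hz : g * (h * h'⁻¹) * g⁻¹ ∈ φ.ker := by
      rw [MonoidHom.mem_ker]; simp [hφ]
    refine ⟨w * (single ⟨_, hz⟩ 1 - 1), ?_, g * h', r * r', ?_⟩
    · rw [pow_succ]; exact Set.mul_mem_mul hw ⟨_, rfl⟩
    · have e1 : mapDomainRingHom K φ.ker.subtype (single (⟨_, hz⟩ : φ.ker) (1 : K) - 1)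
          = single (g * (h * h'⁻¹) * g⁻¹) (1 : K) - 1 := by
        rw [map_sub, map_one]; simp [mapDomainRingHom_apply, mapDomain_single]
      rw [map_mul, e1, mul_assoc, mul_assoc]
      congr 1
      rw [mul_sub, sub_mul, single_mul_single, single_mul_single, single_mul_single, one_mul,
        one_mul]
      congr 2
      group

/-- A homomorphism to a finite `p`-group kills long products of elements `z - 1`. -/
lemma exists_pow_unipSet_map_eq_zero (p : ℕ) [Fact p.Prime] [CharP K p] {N : Type*} [Group N]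
    {P : Type*} [Group P] [Finite P] (hP : IsPGroup p P) (ψ : N →* P) :
    ∃ m : ℕ, ∀ w ∈ (unipSet K N) ^ (m + 1), mapDomainRingHom K ψ w = 0 := by
  have hker : IsPGroup p (1 : P →* Unit).ker := hP.to_subgroup _
  obtain ⟨m, hm⟩ := kerAdd_pow_eq_bot (K := K) p (1 : P →* Unit) hker
  refine ⟨m, fun w' hw' => ?_⟩
  rw [pow_succ] at hw'
  obtain ⟨w, hw, w₂, _, rfl⟩ := Set.mem_mul.mp hw'
  rw [map_mul]
  suffices h : mapDomainRingHom K ψ w = 0 by rw [h, zero_mul]
  have h1 : mapDomainRingHom K ψ w ∈ (mapDomainRingHom K ψ '' unipSet K N) ^ m := by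
    rw [← Set.image_pow]
    exact Set.mem_image_of_mem _ hw
  have h2 : (mapDomainRingHom K ψ '' unipSet K N) ⊆ (kerAdd K (1 : P →* Unit) : Set _) := by
    rintro _ ⟨_, ⟨z, rfl⟩, rfl⟩
    change mapDomainRingHom K (1 : P →* Unit) _ = 0
    rw [map_sub, map_sub, map_one, map_one]
    simp [mapDomainRingHom_apply, mapDomain_single, one_def]
  have h3 := AddSubmonoid.pow_subset_pow (Set.pow_subset_pow_left h2 (n := m) h1)
  rw [hm] at h3
  simpa using h3


/-- The coefficient family of `x` on the right coset `N t`, as an element of `K[N]`. -/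
noncomputable def cosetProj (K : Type*) [CommRing K] {G : Type*} [Group G] (N : Subgroup G)
    (t : G) (x : MonoidAlgebra K G) : MonoidAlgebra K N :=
  comapDomain (Subtype.val : N → G) Subtype.val_injective (x * single t⁻¹ 1)

lemma cosetProj_add (N : Subgroup G) (t : G) (x y : MonoidAlgebra K G) :
    cosetProj K N t (x + y) = cosetProj K N t x + cosetProj K N t y := by
  simp [cosetProj, add_mul]

lemma cosetProj_zero (N : Subgroup G) (t : G) : cosetProj K N t (0 : MonoidAlgebra K G) = 0 := by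
  simp [cosetProj]

lemma cosetProj_mul (N : Subgroup G) (t : G) (w : MonoidAlgebra K N) (y : MonoidAlgebra K G) :
    cosetProj K N t (mapDomainRingHom K N.subtype w * y) = w * cosetProj K N t y := by
  unfold cosetProj
  rw [mul_assoc]
  exact comap_map_mul N w (y * single t⁻¹ 1)

lemma cosetProj_coeff_one (N : Subgroup G) (t : G) (x : MonoidAlgebra K G) :
    (cosetProj K N t x).coeff 1 = x.coeff t := by
  unfold cosetProj
  rw [coeff_comapDomain, Finsupp.comapDomain_apply, coeff_mul_single_apply]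
  simp

lemma isPGroup_pi (p : ℕ) {ι : Type*} [Finite ι] {P : ι → Type*} [∀ i, Group (P i)]
    (h : ∀ i, IsPGroup p (P i)) : IsPGroup p (∀ i, P i) := by
  intro g
  choose k hk using fun i => h i (g i)
  let _ := Fintype.ofFinite ι
  refine ⟨Finset.univ.sup k, ?_⟩
  funext i
  have hle : k i ≤ Finset.univ.sup k := Finset.le_sup (Finset.mem_univ i)
  obtain ⟨d, hd⟩ := Nat.exists_eq_add_of_le hle
  change g i ^ p ^ (Finset.univ.sup k) = 1
  rw [hd, pow_add, pow_mul, hk i, one_pow]

/-- Residual `p`-finiteness, in terms of homomorphisms to finite `p`-groups. -/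
def ResP (p : ℕ) (N : Type u) [Group N] : Prop :=
  ∀ x : N, x ≠ 1 → ∃ (P : Type u) (_ : Group P) (_ : Finite P),
    IsPGroup p P ∧ ∃ f : N →* P, f x ≠ 1

lemma exists_map_ne_zero (p : ℕ) {N : Type u} [Group N] (hN : ResP p N)
    (y : MonoidAlgebra K N) (hy : y ≠ 0) :
    ∃ (P : Type u) (_ : Group P) (_ : Finite P), IsPGroup p P ∧
      ∃ ψ : N →* P, mapDomainRingHom K ψ y ≠ 0 := by
  classical
  let I := {q : N × N // q.1 ∈ y.coeff.support ∧ q.2 ∈ y.coeff.support ∧ q.1 ≠ q.2}
  have hI : Finite I := by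
    apply Finite.of_injective (fun q : I => ((⟨q.1.1, q.2.1⟩, ⟨q.1.2, q.2.2.1⟩) :
      y.coeff.support × y.coeff.support))
    intro a b hab
    simp only [Prod.mk.injEq, Subtype.mk.injEq] at hab
    exact Subtype.ext (Prod.ext hab.1 hab.2)
  have h : ∀ q : I, ∃ (P : Type u) (_ : Group P) (_ : Finite P),
      IsPGroup p P ∧ ∃ f : N →* P, f (q.1.1⁻¹ * q.1.2) ≠ 1 := fun q =>
    hN _ (fun h0 => q.2.2.2 (inv_mul_eq_one.mp h0))
  choose P instG instF hP f hf using h
  refine ⟨∀ q, P q, inferInstance, inferInstance, isPGroup_pi p hP, MonoidHom.pi f, ?_⟩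
  have hinj : Set.InjOn (MonoidHom.pi f) (y.coeff.support : Set N) := by
    intro s hs s' hs' hss'
    by_contra hne
    have h1 := congrFun hss' ⟨(s, s'), hs, hs', hne⟩
    apply hf ⟨(s, s'), hs, hs', hne⟩
    change f _ (s⁻¹ * s') = 1
    rw [map_mul, map_inv]
    change f _ s = f _ s' at h1
    rw [h1, inv_mul_cancel]
  obtain ⟨s₀, hs₀⟩ : ∃ s₀, s₀ ∈ y.coeff.support := by
    by_contra hempty
    apply hy
    ext s
    by_contra hs
    exact hempty ⟨s, Finsupp.mem_support_iff.mpr hs⟩
  intro h0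
  have h2 : (mapDomain (MonoidHom.pi f) y).coeff (MonoidHom.pi f s₀) = y.coeff s₀ :=
    Finsupp.mapDomain_apply' (y.coeff.support : Set N) y.coeff subset_rfl hinj hs₀
  rw [mapDomainRingHom_apply] at h0
  rw [h0] at h2
  exact (Finsupp.mem_support_iff.mp hs₀) h2.symm

/-- If the kernel of `φ` is residually a finite `p`-group and `K` has characteristic `p`, then the
powers of the kernel of `K[G] → K[Q]` have zero intersection. -/
theorem eq_zero_of_forall_mem_kerAdd_pow (p : ℕ) [Fact p.Prime] [CharP K p] (φ : G →* Q)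
    (hres : ResP p φ.ker) (x : MonoidAlgebra K G) (hx : ∀ m : ℕ, x ∈ kerAdd K φ ^ (m + 1)) :
    x = 0 := by
  by_contra hx0
  obtain ⟨t, ht⟩ : ∃ t, x.coeff t ≠ 0 := by
    by_contra hall
    apply hx0
    ext t
    by_contra ht
    exact hall ⟨t, ht⟩
  have hy : cosetProj K φ.ker t x ≠ 0 := by
    intro h0
    apply ht
    rw [← cosetProj_coeff_one φ.ker t x, h0]
    rfl
  obtain ⟨P, _, _, hP, ψ, hψ⟩ := exists_map_ne_zero (K := K) p hres _ hy
  obtain ⟨m, hm⟩ := exists_pow_unipSet_map_eq_zero (K := K) p hP ψ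
  have hxm : x ∈ AddSubmonoid.closure (kerGen K φ ^ (m + 1)) := by
    rw [← AddSubmonoid.closure_pow]
    exact addSubmonoid_pow_mono (kerAdd_le_closure φ) (m + 1) (hx m)
  have key : ∀ z ∈ AddSubmonoid.closure (kerGen K φ ^ (m + 1)),
      mapDomainRingHom K ψ (cosetProj K φ.ker t z) = 0 := by
    intro z hz
    induction hz using AddSubmonoid.closure_induction with
    | mem z hz =>
      obtain ⟨w, hw, g, r, rfl⟩ := kerGen_pow_subset_unip φ (m + 1) hz
      rw [cosetProj_mul, map_mul, hm w hw, zero_mul]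
    | zero => rw [cosetProj_zero, map_zero]
    | add a b _ _ ha hb => rw [cosetProj_add, map_add, ha, hb, add_zero]
  exact hψ (key x hxm)


/-- Direct finiteness lifts along `K[G] → K[Q]` when the powers of the kernel have zero
intersection. -/
theorem mul_eq_one_symm_of_residual (φ : G →* Q)
    (hres : ∀ x : MonoidAlgebra K G, (∀ m : ℕ, x ∈ kerAdd K φ ^ (m + 1)) → x = 0)
    (hQ : ∀ x y : MonoidAlgebra K Q, x * y = 1 → y * x = 1)
    (a b : MonoidAlgebra K G) (hab : a * b = 1) : b * a = 1 := by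
  have h1 : mapDomainRingHom K φ a * mapDomainRingHom K φ b = 1 := by
    rw [← map_mul, hab, map_one]
  have h2 := hQ _ _ h1
  have hn : 1 - b * a ∈ kerAdd K φ := by
    change mapDomainRingHom K φ (1 - b * a) = 0
    rw [map_sub, map_mul, h2, map_one, sub_self]
  have hbaba : b * a * (b * a) = b * a := by rw [mul_assoc, ← mul_assoc a b a, hab, one_mul]
  have hidem : IsIdempotentElem (1 - b * a) := by
    unfold IsIdempotentElem
    calc (1 - b * a) * (1 - b * a) = 1 - b * a - b * a + b * a * (b * a) := by noncomm_ring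
      _ = 1 - b * a := by rw [hbaba]; abel
  have hmem : ∀ m : ℕ, 1 - b * a ∈ kerAdd K φ ^ (m + 1) := by
    intro m
    have := AddSubmonoid.pow_subset_pow (Set.pow_mem_pow (n := m + 1) hn)
    rwa [hidem.pow_succ_eq] at this
  have := hres _ hmem
  exact (sub_eq_zero.mp this).symm

/-- Direct finiteness of matrix rings lifts along `K[G] → K[Q]` when the powers of the kernel
have zero intersection. -/
theorem matrix_mul_eq_one_symm_of_residual (φ : G →* Q)
    (hres : ∀ x : MonoidAlgebra K G, (∀ m : ℕ, x ∈ kerAdd K φ ^ (m + 1)) → x = 0)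
    (n : ℕ)
    (hQ : ∀ A B : Matrix (Fin n) (Fin n) (MonoidAlgebra K Q), A * B = 1 → B * A = 1)
    (A B : Matrix (Fin n) (Fin n) (MonoidAlgebra K G)) (hAB : A * B = 1) : B * A = 1 := by
  have h1 : (mapDomainRingHom K φ).mapMatrix A * (mapDomainRingHom K φ).mapMatrix B = 1 := by
    rw [← map_mul, hAB, map_one]
  have h2 := hQ _ _ h1
  have hN : ∀ i j, (1 - B * A) i j ∈ kerAdd K φ := by
    intro i j
    have h3 : (mapDomainRingHom K φ).mapMatrix (1 - B * A) = 0 := by
      rw [map_sub, map_mul, h2, map_one, sub_self]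
    have h4 := congrFun (congrFun h3 i) j
    change mapDomainRingHom K φ ((1 - B * A) i j) = 0
    simpa [RingHom.mapMatrix_apply, Matrix.map_apply] using h4
  have hBABA : B * A * (B * A) = B * A := by rw [mul_assoc, ← mul_assoc A B A, hAB, one_mul]
  have hidem : IsIdempotentElem (1 - B * A) := by
    unfold IsIdempotentElem
    calc (1 - B * A) * (1 - B * A) = 1 - B * A - B * A + B * A * (B * A) := by noncomm_ring
      _ = 1 - B * A := by rw [hBABA]; abel
  have hpow : ∀ k : ℕ, ∀ i j, ((1 - B * A) ^ (k + 1)) i j ∈ kerAdd K φ ^ (k + 1) := by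
    intro k
    induction k with
    | zero =>
      intro i j
      rw [zero_add, pow_one, pow_one]
      exact hN i j
    | succ k ih =>
      intro i j
      rw [pow_succ (1 - B * A) (k + 1), pow_succ (kerAdd K φ) (k + 1), Matrix.mul_apply]
      exact sum_mem fun l _ => AddSubmonoid.mul_mem_mul (ih i l) (hN l j)
  have hzero : 1 - B * A = 0 := by
    refine Matrix.ext fun i j => ?_
    refine hres _ fun m => ?_
    have := hpow m i j
    rwa [hidem.pow_succ_eq] at this
  exact (sub_eq_zero.mp hzero).symm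


/-- Residual `p`-finiteness in terms of normal subgroups of `p`-power index. -/
lemma resP_of_index (p : ℕ) [Fact p.Prime] {N : Type u} [Group N]
    (h : ∀ x : N, x ≠ 1 → ∃ M : Subgroup N, M.Normal ∧ (∃ k : ℕ, M.index = p ^ k) ∧ x ∉ M) :
    ResP p N := by
  intro x hx
  obtain ⟨M, hMn, ⟨k, hk⟩, hxM⟩ := h x hx
  have hne : M.index ≠ 0 := by
    rw [hk]
    exact pow_ne_zero _ (Fact.out : p.Prime).ne_zero
  have : M.FiniteIndex := ⟨hne⟩
  have hfin : Finite (N ⧸ M) := Subgroup.finite_quotient_of_finiteIndex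
  refine ⟨N ⧸ M, inferInstance, hfin,
    IsPGroup.of_card (n := k) (by rw [← Subgroup.index_eq_card]; exact hk),
    QuotientGroup.mk' M, ?_⟩
  rwa [ne_eq, QuotientGroup.mk'_apply, QuotientGroup.eq_one_iff]

/-- Main theorem: in characteristic `p`, direct finiteness of `K[Q]` (and of its matrix
rings) lifts to `K[G]` along a homomorphism `φ : G →* Q` whose kernel is residually a finite
`p`-group. -/
theorem lift_of_residually_p_hom (p : ℕ) [Fact p.Prime] [CharP K p] (φ : G →* Q)
    (hN : ∀ x : φ.ker, x ≠ 1 →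
      ∃ M : Subgroup φ.ker, M.Normal ∧ (∃ k : ℕ, M.index = p ^ k) ∧ x ∉ M) :
    ((∀ x y : MonoidAlgebra K Q, x * y = 1 → y * x = 1) →
      ∀ a b : MonoidAlgebra K G, a * b = 1 → b * a = 1) ∧
    ∀ n : ℕ, (∀ A B : Matrix (Fin n) (Fin n) (MonoidAlgebra K Q), A * B = 1 → B * A = 1) →
      ∀ A B : Matrix (Fin n) (Fin n) (MonoidAlgebra K G), A * B = 1 → B * A = 1 := by
  have hres : ResP p φ.ker := resP_of_index p hN
  have key := eq_zero_of_forall_mem_kerAdd_pow (K := K) p φ hres
  exact ⟨fun hQ a b hab => mul_eq_one_symm_of_residual φ key hQ a b hab,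
    fun n hQ A B hAB => matrix_mul_eq_one_symm_of_residual φ key n hQ A B hAB⟩

/-- The special case of a normal subgroup `N` and the quotient `G ⧸ N`. -/
theorem lift_of_residually_p (p : ℕ) [Fact p.Prime] [CharP K p] (N : Subgroup G) [N.Normal]
    (hN : ∀ x : N, x ≠ 1 → ∃ M : Subgroup N, M.Normal ∧ (∃ k : ℕ, M.index = p ^ k) ∧ x ∉ M) :
    ((∀ x y : MonoidAlgebra K (G ⧸ N), x * y = 1 → y * x = 1) →
      ∀ a b : MonoidAlgebra K G, a * b = 1 → b * a = 1) ∧
    ∀ n : ℕ, (∀ A B : Matrix (Fin n) (Fin n) (MonoidAlgebra K (G ⧸ N)), A * B = 1 → B * A = 1) →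
      ∀ A B : Matrix (Fin n) (Fin n) (MonoidAlgebra K G), A * B = 1 → B * A = 1 := by
  have hres : ResP p (QuotientGroup.mk' N).ker := by
    rw [QuotientGroup.ker_mk']
    exact resP_of_index p hN
  have key := eq_zero_of_forall_mem_kerAdd_pow (K := K) p (QuotientGroup.mk' N) hres
  exact ⟨fun hQ a b hab => mul_eq_one_symm_of_residual (QuotientGroup.mk' N) key hQ a b hab,
    fun n hQ A B hAB => matrix_mul_eq_one_symm_of_residual (QuotientGroup.mk' N) key n hQ A B hAB⟩

end Vale.Agent.Lib.P194
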