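import Vale.Agent.Lib.P194.ResidualP

/-!
# Groups with a finite normal series whose factors are residually finite `p`-groups

For such a group `G` (with abelian top quotient) and a commutative ring `K` of characteristic `p`,
all matrix rings over `K[G]` are directly finite.
-/

namespace Vale.Agent.Lib.P194

open MonoidAlgebra
open scoped Pointwise

universe u

variable {K : Type*} [CommRing K] {G : Type u} [Group G]

/-- Matrix rings over the group algebra of a commutative group are directly finite. -/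
lemma matrix_mul_eq_one_symm_of_comm {Q : Type*} [Group Q] (hc : ∀ a b : Q, a * b = b * a)
    (n : ℕ) (A B : Matrix (Fin n) (Fin n) (MonoidAlgebra K Q)) (hAB : A * B = 1) : B * A = 1 := by
  let : CommGroup Q := { ‹Group Q› with mul_comm := hc }
  exact mul_eq_one_comm.mp hAB

/-- The kernel of `G ⧸ N → G ⧸ M` is residually a finite `p`-group if `M / N` is. -/
lemma resP_ker_quotientMap (p : ℕ) [Fact p.Prime] (N M : Subgroup G) [N.Normal] [M.Normal]
    (hNM : N ≤ M)
    (h : ∀ x ∈ M, x ∉ N → ∃ L : Subgroup G, N ≤ L ∧ L ≤ M ∧ (L.subgroupOf M).Normal ∧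
      (∃ k : ℕ, L.relIndex M = p ^ k) ∧ x ∉ L) :
    ResP p (QuotientGroup.map N M (MonoidHom.id G) hNM).ker := by
  intro y hy
  obtain ⟨x, hx⟩ := QuotientGroup.mk_surjective (s := N) y.1
  have hxM : x ∈ M := by
    have h1 := y.2
    rw [MonoidHom.mem_ker, ← hx] at h1
    have h2 : (QuotientGroup.mk x : G ⧸ M) = 1 := h1
    exact (QuotientGroup.eq_one_iff x).mp h2
  have hxN : x ∉ N := by
    intro hxN
    apply hy
    apply Subtype.ext
    rw [← hx]
    exact (QuotientGroup.eq_one_iff x).mpr hxN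
  obtain ⟨L, hNL, hLM, hLn, ⟨k, hk⟩, hxL⟩ := h x hxM hxN
  have hne : (L.subgroupOf M).index ≠ 0 := by
    change L.relIndex M ≠ 0
    rw [hk]
    exact pow_ne_zero _ (Fact.out : p.Prime).ne_zero
  have : (L.subgroupOf M).FiniteIndex := ⟨hne⟩
  have hfin : Finite (M ⧸ L.subgroupOf M) := Subgroup.finite_quotient_of_finiteIndex
  have hP : IsPGroup p (M ⧸ L.subgroupOf M) :=
    IsPGroup.of_card (n := k) (by rw [← Subgroup.index_eq_card]; exact hk)
  -- the surjection `M → ker`
  let s : M →* (QuotientGroup.map N M (MonoidHom.id G) hNM).ker :=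
    ((QuotientGroup.mk' N).comp M.subtype).codRestrict _ (fun z => by
      rw [MonoidHom.mem_ker]
      change (QuotientGroup.mk (z : G) : G ⧸ M) = 1
      exact (QuotientGroup.eq_one_iff _).mpr z.2)
  have hs : Function.Surjective s := by
    intro w
    obtain ⟨x', hx'⟩ := QuotientGroup.mk_surjective (s := N) w.1
    have hx'M : x' ∈ M := by
      have h1 := w.2
      rw [MonoidHom.mem_ker, ← hx'] at h1
      have h2 : (QuotientGroup.mk x' : G ⧸ M) = 1 := h1
      exact (QuotientGroup.eq_one_iff x').mp h2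
    exact ⟨⟨x', hx'M⟩, Subtype.ext hx'⟩
  have hker : s.ker ≤ (QuotientGroup.mk' (L.subgroupOf M)).ker := by
    intro z hz
    rw [MonoidHom.mem_ker] at hz
    have h1 : (QuotientGroup.mk (z : G) : G ⧸ N) = 1 := congrArg Subtype.val hz
    have h2 : (z : G) ∈ N := (QuotientGroup.eq_one_iff _).mp h1
    rw [QuotientGroup.ker_mk']
    exact Subgroup.mem_subgroupOf.mpr (hNL h2)
  refine ⟨M ⧸ L.subgroupOf M, inferInstance, hfin, hP,
    MonoidHom.liftOfSurjective s hs ⟨QuotientGroup.mk' (L.subgroupOf M), hker⟩, ?_⟩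
  have hy' : y = s ⟨x, hxM⟩ := Subtype.ext hx.symm
  rw [hy']
  rw [MonoidHom.liftOfRightInverse_comp_apply]
  change (QuotientGroup.mk (⟨x, hxM⟩ : M) : M ⧸ L.subgroupOf M) ≠ 1
  rw [ne_eq, QuotientGroup.eq_one_iff]
  exact fun hmem => hxL (Subgroup.mem_subgroupOf.mp hmem)

/-- Lifting along a finite normal series with residually finite `p`-group factors: if all matrix
rings over `K[G ⧸ N r]` are directly finite, so are all matrix rings over `K[G]`. -/
theorem matrix_mul_eq_one_symm_of_series_top (p : ℕ) [Fact p.Prime] [CharP K p] (r : ℕ)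
    (N : ℕ → Subgroup G) (hnorm : ∀ i, (N i).Normal) (h0 : N 0 = ⊥)
    (hres : ∀ i < r, N i ≤ N (i + 1) ∧ ∀ x ∈ N (i + 1), x ∉ N i →
      ∃ L : Subgroup G, N i ≤ L ∧ L ≤ N (i + 1) ∧ (L.subgroupOf (N (i + 1))).Normal ∧
        (∃ k : ℕ, L.relIndex (N (i + 1)) = p ^ k) ∧ x ∉ L)
    (n : ℕ)
    (htop : ∀ A B : Matrix (Fin n) (Fin n) (MonoidAlgebra K (G ⧸ N r)), A * B = 1 → B * A = 1)
    (A B : Matrix (Fin n) (Fin n) (MonoidAlgebra K G)) (hAB : A * B = 1) :
    B * A = 1 := by
  have key : ∀ d i : ℕ, i + d = r →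
      ∀ A B : Matrix (Fin n) (Fin n) (MonoidAlgebra K (G ⧸ N i)), A * B = 1 → B * A = 1 := by
    intro d
    induction d with
    | zero =>
      intro i hi A B hAB
      rw [add_zero] at hi
      subst hi
      exact htop A B hAB
    | succ d ih =>
      intro i hi A B hAB
      have hi' : i < r := by omega
      obtain ⟨hle, hfac⟩ := hres i hi'
      have hQ := ih (i + 1) (by omega)
      have hresP := resP_ker_quotientMap p (N i) (N (i + 1)) hle hfac
      exact matrix_mul_eq_one_symm_of_residual _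
        (eq_zero_of_forall_mem_kerAdd_pow (K := K) p _ hresP) n hQ A B hAB
  have hbot : ResP p (QuotientGroup.mk' (N 0)).ker := by
    intro x hx
    exfalso
    apply hx
    have h1 : (x : G) ∈ N 0 := (QuotientGroup.eq_one_iff (x : G)).mp (MonoidHom.mem_ker.mp x.2)
    exact Subtype.ext (Subgroup.mem_bot.mp (le_of_eq h0 h1))
  exact matrix_mul_eq_one_symm_of_residual (QuotientGroup.mk' (N 0))
    (eq_zero_of_forall_mem_kerAdd_pow (K := K) p _ hbot) n (key r 0 (by omega)) A B hAB

/-- Stable finiteness of `K[G]`, `char K = p`, for groups with a finite normal series whose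
factors are residually finite `p`-groups and whose top quotient is abelian. -/
theorem matrix_mul_eq_one_symm_of_series (p : ℕ) [Fact p.Prime] [CharP K p] (r : ℕ)
    (N : ℕ → Subgroup G) (hnorm : ∀ i, (N i).Normal) (h0 : N 0 = ⊥)
    (hr : ∀ a b : G, a * b * a⁻¹ * b⁻¹ ∈ N r)
    (hres : ∀ i < r, N i ≤ N (i + 1) ∧ ∀ x ∈ N (i + 1), x ∉ N i →
      ∃ L : Subgroup G, N i ≤ L ∧ L ≤ N (i + 1) ∧ (L.subgroupOf (N (i + 1))).Normal ∧
        (∃ k : ℕ, L.relIndex (N (i + 1)) = p ^ k) ∧ x ∉ L)
    (n : ℕ) (A B : Matrix (Fin n) (Fin n) (MonoidAlgebra K G)) (hAB : A * B = 1) :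
    B * A = 1 := by
  refine matrix_mul_eq_one_symm_of_series_top p r N hnorm h0 hres n ?_ A B hAB
  intro A B hAB
  refine matrix_mul_eq_one_symm_of_comm (fun a b => ?_) n A B hAB
  obtain ⟨x, rfl⟩ := QuotientGroup.mk_surjective a
  obtain ⟨y, rfl⟩ := QuotientGroup.mk_surjective b
  rw [← QuotientGroup.mk_mul, ← QuotientGroup.mk_mul, QuotientGroup.eq]
  have h1 := hr y⁻¹ x⁻¹
  have h2 : (x * y)⁻¹ * (y * x) = y⁻¹ * x⁻¹ * y⁻¹⁻¹ * x⁻¹⁻¹ := by group
  rw [h2]
  exact h1

end Vale.Agent.Lib.P194
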