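import Vale.Agent.Lib.P194.Series

/-!
# Stable finiteness of group algebras of sofic groups over fields

The counting proof: if `A * B = 1` for matrices over `K[Q]` but `B * A ≠ 1`, a good enough
sofic approximation of `Q` on a finite set `X` gives too many linearly independent vectors in
the `n |X|`-dimensional space `(Fin n × X) →₀ K`.
-/

namespace Vale.Agent.Lib.P194

open MonoidAlgebra

universe u

set_option linter.unusedSectionVars false

variable {K : Type*} [Field K] {Q : Type*} [Group Q] {X : Type*}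

/-- The orbit map at the point `x`: `a ↦ ∑ g, a g • δ_{σ g x}`. -/
noncomputable def orb (σ : Q → Equiv.Perm X) (x : X) : MonoidAlgebra K Q →ₗ[K] (X →₀ K) :=
  Finsupp.lmapDomain K K (fun g => σ g x) ∘ₗ (coeffLinearEquiv K).toLinearMap

lemma orb_single (σ : Q → Equiv.Perm X) (x : X) (g : Q) (c : K) :
    orb σ x (single g c) = Finsupp.single (σ g x) c := by
  simp [orb, Finsupp.lmapDomain_apply, Finsupp.mapDomain_single]

lemma orb_apply (σ : Q → Equiv.Perm X) (x : X) (a : MonoidAlgebra K Q) :
    orb σ x a = a.coeff.sum fun g c => Finsupp.single (σ g x) c := by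
  simp [orb, Finsupp.lmapDomain_apply, Finsupp.mapDomain]

/-- The operator on `X →₀ K` attached to `a`. -/
noncomputable def act (σ : Q → Equiv.Perm X) (a : MonoidAlgebra K Q) :
    (X →₀ K) →ₗ[K] (X →₀ K) :=
  Finsupp.lift (X →₀ K) K X (fun y => orb σ y a)

lemma act_single (σ : Q → Equiv.Perm X) (a : MonoidAlgebra K Q) (y : X) (c : K) :
    act σ a (Finsupp.single y c) = c • orb σ y a := by
  simp [act]

/-- At a point where `σ` is multiplicative on the supports, `act a (orb x b) = orb x (a * b)`. -/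
lemma act_orb (σ : Q → Equiv.Perm X) (x : X) (a b : MonoidAlgebra K Q)
    (hgood : ∀ g ∈ a.coeff.support, ∀ h ∈ b.coeff.support, σ (g * h) x = σ g (σ h x)) :
    act σ a (orb σ x b) = orb σ x (a * b) := by
  have hR : orb σ x (a * b) = ∑ g ∈ a.coeff.support, ∑ h ∈ b.coeff.support,
      Finsupp.single (σ (g * h) x) (a.coeff g * b.coeff h) := by
    rw [mul_def, Finsupp.sum, map_sum]
    refine Finset.sum_congr rfl fun g _ => ?_
    rw [Finsupp.sum, map_sum]
    refine Finset.sum_congr rfl fun h _ => ?_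
    rw [orb_single]
  have hL : act σ a (orb σ x b) = ∑ h ∈ b.coeff.support, ∑ g ∈ a.coeff.support,
      Finsupp.single (σ g (σ h x)) (a.coeff g * b.coeff h) := by
    rw [orb_apply σ x b, Finsupp.sum, map_sum]
    refine Finset.sum_congr rfl fun h _ => ?_
    rw [act_single, orb_apply, Finsupp.sum, Finset.smul_sum]
    refine Finset.sum_congr rfl fun g _ => ?_
    rw [Finsupp.smul_single, smul_eq_mul, mul_comm]
  rw [hR, hL, Finset.sum_comm]
  refine Finset.sum_congr rfl fun g hg => Finset.sum_congr rfl fun h hh => ?_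
  rw [hgood g hg h hh]



/-- A family of finite sets, each meeting at most `c` members of the family, has a pairwise
disjoint subfamily of at least `1 / c` of the size. -/
lemma exists_disjoint_subfamily {X : Type*} [DecidableEq X] (O : X → Finset X) (c : ℕ)
    (hself : ∀ x, (O x).Nonempty)
    (W : Finset X)
    (hdeg : ∀ x ∈ W, (W.filter fun x' => ¬ Disjoint (O x) (O x')).card ≤ c) :
    ∃ Y ⊆ W, (∀ y ∈ Y, ∀ y' ∈ Y, y ≠ y' → Disjoint (O y) (O y')) ∧ W.card ≤ Y.card * c := by
  induction W using Finset.strongInduction with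
  | H W ih =>
    by_cases hW : W = ∅
    · exact ⟨∅, by simp, by simp, by simp [hW]⟩
    obtain ⟨x, hx⟩ := Finset.nonempty_iff_ne_empty.mpr hW
    have hxx : ¬ Disjoint (O x) (O x) := by
      rw [disjoint_self]
      exact (hself x).ne_empty
    have hsub : W.filter (fun x' => Disjoint (O x) (O x')) ⊂ W := by
      refine Finset.ssubset_iff_subset_ne.mpr ⟨Finset.filter_subset _ _, fun heq => ?_⟩
      have : x ∈ W.filter (fun x' => Disjoint (O x) (O x')) := by rw [heq]; exact hx
      exact hxx (Finset.mem_filter.mp this).2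
    obtain ⟨Y', hY'sub, hY'dis, hY'card⟩ := ih _ hsub (fun x₁ hx₁ => by
      refine le_trans (Finset.card_le_card ?_) (hdeg x₁ (Finset.mem_filter.mp hx₁).1)
      intro x₂ hx₂
      rw [Finset.mem_filter] at hx₂ ⊢
      exact ⟨(Finset.mem_filter.mp hx₂.1).1, hx₂.2⟩)
    have hxY' : x ∉ Y' := fun h => hxx (Finset.mem_filter.mp (hY'sub h)).2
    refine ⟨insert x Y', ?_, ?_, ?_⟩
    · intro y hy
      rcases Finset.mem_insert.mp hy with rfl | hy
      · exact hx
      · exact (Finset.mem_filter.mp (hY'sub hy)).1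
    · intro y hy y' hy' hne
      rcases Finset.mem_insert.mp hy with h1 | h1
      · rcases Finset.mem_insert.mp hy' with h2 | h2
        · exact absurd (h1.trans h2.symm) hne
        · rw [h1]
          exact (Finset.mem_filter.mp (hY'sub h2)).2
      · rcases Finset.mem_insert.mp hy' with h2 | h2
        · rw [h2]
          exact (Finset.mem_filter.mp (hY'sub h1)).2.symm
        · exact hY'dis y h1 y' h2 hne
    · rw [Finset.card_insert_of_notMem hxY', add_mul, one_mul]
      have hsplit : W.card = (W.filter fun x' => Disjoint (O x) (O x')).card +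
          (W.filter fun x' => ¬ Disjoint (O x) (O x')).card :=
        (Finset.card_filter_add_card_filter_not _).symm
      have := hdeg x hx
      omega

section Vector

variable {n : ℕ}

/-- The `i`-th coordinate embedding. -/
noncomputable def emb (i : Fin n) : (X →₀ K) →ₗ[K] (Fin n × X →₀ K) :=
  Finsupp.lmapDomain K K (fun y => (i, y))

lemma emb_single (i : Fin n) (y : X) (c : K) :
    emb i (Finsupp.single y c) = Finsupp.single (i, y) c := by
  simp [emb, Finsupp.lmapDomain_apply, Finsupp.mapDomain_single]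

/-- The orbit map for vectors. -/
noncomputable def Orb (σ : Q → Equiv.Perm X) (x : X) (u : Fin n → MonoidAlgebra K Q) :
    Fin n × X →₀ K :=
  ∑ i, emb i (orb σ x (u i))

/-- The operator on `Fin n × X →₀ K` attached to a matrix. -/
noncomputable def opT (σ : Q → Equiv.Perm X) (A : Matrix (Fin n) (Fin n) (MonoidAlgebra K Q)) :
    (Fin n × X →₀ K) →ₗ[K] (Fin n × X →₀ K) :=
  Finsupp.lift (Fin n × X →₀ K) K (Fin n × X) (fun p => Orb σ p.2 (fun i => A i p.1))

lemma opT_single (σ : Q → Equiv.Perm X) (A : Matrix (Fin n) (Fin n) (MonoidAlgebra K Q))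
    (j : Fin n) (y : X) (c : K) :
    opT σ A (Finsupp.single (j, y) c) = c • Orb σ y (fun i => A i j) := by
  simp [opT]

lemma opT_emb (σ : Q → Equiv.Perm X) (A : Matrix (Fin n) (Fin n) (MonoidAlgebra K Q))
    (j : Fin n) (w : X →₀ K) :
    opT σ A (emb j w) = ∑ i, emb i (act σ (A i j) w) := by
  have h : (opT σ A) ∘ₗ (emb j) = ∑ i, (emb i) ∘ₗ (act σ (A i j)) := by
    refine Finsupp.lhom_ext fun y c => ?_
    rw [LinearMap.comp_apply, emb_single, opT_single, LinearMap.sum_apply, Orb, Finset.smul_sum]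
    refine Finset.sum_congr rfl fun i _ => ?_
    rw [LinearMap.comp_apply, act_single, map_smul]
  have h2 := congrArg (fun L : (X →₀ K) →ₗ[K] (Fin n × X →₀ K) => L w) h
  simpa [LinearMap.sum_apply] using h2

/-- At a good point, `opT A (Orb x u) = Orb x (A *ᵥ u)`. -/
lemma opT_Orb (σ : Q → Equiv.Perm X) (A : Matrix (Fin n) (Fin n) (MonoidAlgebra K Q))
    (x : X) (u : Fin n → MonoidAlgebra K Q)
    (hgood : ∀ i j, ∀ g ∈ (A i j).coeff.support, ∀ h ∈ (u j).coeff.support,
      σ (g * h) x = σ g (σ h x)) :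
    opT σ A (Orb σ x u) = Orb σ x (A.mulVec u) := by
  rw [Orb, map_sum, Orb]
  simp only [opT_emb]
  rw [Finset.sum_comm]
  refine Finset.sum_congr rfl fun i _ => ?_
  rw [← map_sum]
  congr 1
  rw [Matrix.mulVec, dotProduct, map_sum]
  refine Finset.sum_congr rfl fun j _ => ?_
  exact act_orb σ x (A i j) (u j) (hgood i j)

lemma Orb_zero (σ : Q → Equiv.Perm X) (x : X) :
    Orb σ x (0 : Fin n → MonoidAlgebra K Q) = 0 := by
  simp [Orb]

lemma Orb_single_one (σ : Q → Equiv.Perm X) (x : X) (j : Fin n) :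
    Orb σ x (fun i => (1 : Matrix (Fin n) (Fin n) (MonoidAlgebra K Q)) i j) =
      Finsupp.single (j, σ 1 x) 1 := by
  rw [Orb, Finset.sum_eq_single j]
  · rw [Matrix.one_apply_eq, one_def, orb_single, emb_single]
  · intro i _ hij
    rw [Matrix.one_apply_ne hij, map_zero, map_zero]
  · intro h; exact absurd (Finset.mem_univ j) h

lemma Orb_apply_eq (σ : Q → Equiv.Perm X) (x : X) (u : Fin n → MonoidAlgebra K Q)
    (i : Fin n) (z : X) :
    Orb σ x u (i, z) = orb σ x (u i) z := by
  classical
  rw [Orb, Finsupp.finsetSum_apply, Finset.sum_eq_single i]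
  · rw [emb, Finsupp.lmapDomain_apply]
    exact Finsupp.mapDomain_apply (Prod.mk_right_injective i) _ z
  · intro i' _ hne
    rw [emb, Finsupp.lmapDomain_apply]
    apply Finsupp.mapDomain_of_notMem_range
    rintro ⟨y, hy⟩
    exact hne (congrArg Prod.fst hy)
  · intro h; exact absurd (Finset.mem_univ i) h


lemma orb_eval [DecidableEq X] (σ : Q → Equiv.Perm X) (x z : X) (a : MonoidAlgebra K Q) :
    orb σ x a z = ∑ g ∈ a.coeff.support, if σ g x = z then a.coeff g else 0 := by
  rw [orb_apply, Finsupp.sum, Finsupp.finsetSum_apply]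
  refine Finset.sum_congr rfl fun g _ => ?_
  rw [Finsupp.single_apply]

/-- The dimension count: the vectors attached to the good points and to a separated family of
points are linearly independent in a space of dimension `n * m`. -/
lemma sofic_core {m : ℕ} (A B : Matrix (Fin n) (Fin n) (MonoidAlgebra K Q)) (hAB : A * B = 1)
    (v : Fin n → MonoidAlgebra K Q) (hv : A.mulVec v = 0) (i0 : Fin n) (g0 : Q)
    (hg0 : g0 ∈ (v i0).coeff.support)
    (F : Finset Q) (hFA : ∀ i j, (A i j).coeff.support ⊆ F)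
    (hFB : ∀ i j, (B i j).coeff.support ⊆ F) (hFv : ∀ i, (v i).coeff.support ⊆ F)
    (σ : Q → Equiv.Perm (Fin m)) (Good Y : Finset (Fin m))
    (hGood : ∀ x ∈ Good, ∀ g ∈ F, ∀ h ∈ F, σ (g * h) x = σ g (σ h x))
    (hYmult : ∀ y ∈ Y, ∀ g ∈ F, ∀ h ∈ F, σ (g * h) y = σ g (σ h y))
    (hYsep : ∀ y ∈ Y, ∀ g ∈ F, ∀ h ∈ F, g ≠ h → σ g y ≠ σ h y)
    (hYdis : ∀ y ∈ Y, ∀ y' ∈ Y, y ≠ y' →
      Disjoint (F.image fun g => σ g y) (F.image fun g => σ g y')) :
    n * Good.card + Y.card ≤ n * m := by
  classical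
  let w : (Fin n × {x // x ∈ Good}) ⊕ {y // y ∈ Y} → (Fin n × Fin m →₀ K) :=
    Sum.elim (fun q => Orb σ q.2.1 (fun i => B i q.1)) (fun y => Orb σ y.1 v)
  have hli : LinearIndependent K w := by
    rw [Fintype.linearIndependent_iff]
    intro c hc
    rw [Fintype.sum_sum_type] at hc
    simp only [w, Sum.elim_inl, Sum.elim_inr] at hc
    have h1 := congrArg (opT σ A) hc
    rw [map_add, map_sum, map_sum, map_zero] at h1
    have e1 : ∀ q : Fin n × {x // x ∈ Good},
        opT σ A (c (Sum.inl q) • Orb σ q.2.1 (fun i => B i q.1)) =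
          c (Sum.inl q) • Finsupp.single (q.1, σ 1 q.2.1) (1 : K) := by
      intro q
      rw [map_smul, opT_Orb σ A q.2.1 _
        (fun i j g hg h hh => hGood _ q.2.2 g (hFA i j hg) h (hFB j q.1 hh))]
      have h2 : A.mulVec (fun i => B i q.1) =
          fun i => (1 : Matrix (Fin n) (Fin n) (MonoidAlgebra K Q)) i q.1 := by
        funext i
        rw [← hAB]
        rfl
      rw [h2, Orb_single_one]
    have e2 : ∀ y : {y // y ∈ Y}, opT σ A (c (Sum.inr y) • Orb σ y.1 v) = 0 := by
      intro y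
      rw [map_smul, opT_Orb σ A y.1 v
        (fun i j g hg h hh => hYmult _ y.2 g (hFA i j hg) h (hFv j hh)), hv, Orb_zero, smul_zero]
    simp only [e1, e2, Finset.sum_const_zero, add_zero] at h1
    have hc1 : ∀ q, c (Sum.inl q) = 0 := by
      intro q0
      have h2 := congrArg (fun f : Fin n × Fin m →₀ K => f (q0.1, σ 1 q0.2.1)) h1
      simp only [Finsupp.finsetSum_apply, Finsupp.smul_apply, Finsupp.single_apply,
        Finsupp.zero_apply, smul_eq_mul] at h2
      rw [Finset.sum_eq_single q0] at h2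
      · simpa using h2
      · intro q _ hne
        have hne' : (q.1, σ 1 q.2.1) ≠ (q0.1, σ 1 q0.2.1) := by
          intro heq
          apply hne
          have h3 := Prod.mk.inj heq
          exact Prod.ext h3.1 (Subtype.ext ((σ 1).injective h3.2))
        rw [if_neg hne', mul_zero]
      · intro h; exact absurd (Finset.mem_univ q0) h
    have hc2 : ∀ y, c (Sum.inr y) = 0 := by
      intro y1
      have h3 : ∑ y : {y // y ∈ Y}, c (Sum.inr y) • Orb σ y.1 v = 0 := by
        have h := hc
        simp only [hc1, zero_smul, Finset.sum_const_zero, zero_add] at h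
        exact h
      have h4 := congrArg (fun f : Fin n × Fin m →₀ K => f (i0, σ g0 y1.1)) h3
      simp only [Finsupp.finsetSum_apply, Finsupp.smul_apply, Finsupp.zero_apply, Orb_apply_eq,
        smul_eq_mul] at h4
      rw [Finset.sum_eq_single y1] at h4
      · have h5 : orb σ y1.1 (v i0) (σ g0 y1.1) = (v i0).coeff g0 := by
          rw [orb_eval, Finset.sum_eq_single g0]
          · rw [if_pos rfl]
          · intro g hg hne
            rw [if_neg]
            exact hYsep _ y1.2 g (hFv i0 hg) g0 (hFv i0 hg0) hne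
          · intro h; exact absurd hg0 h
        rw [h5] at h4
        rcases mul_eq_zero.mp h4 with h | h
        · exact h
        · exact absurd h (Finsupp.mem_support_iff.mp hg0)
      · intro y _ hne
        have h6 : orb σ y.1 (v i0) (σ g0 y1.1) = 0 := by
          rw [orb_eval]
          apply Finset.sum_eq_zero
          intro g hg
          rw [if_neg]
          intro heq
          have hd := hYdis y.1 y.2 y1.1 y1.2 (fun h => hne (Subtype.ext h))
          exact Finset.disjoint_left.mp hd (Finset.mem_image.mpr ⟨g, hFv i0 hg, rfl⟩)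
            (Finset.mem_image.mpr ⟨g0, hFv i0 hg0, heq.symm⟩)
        rw [h6, mul_zero]
      · intro h; exact absurd (Finset.mem_univ y1) h
    intro i
    rcases i with q | y
    · exact hc1 q
    · exact hc2 y
  have hcard := hli.fintype_card_le_finrank
  rw [Module.finrank_finsupp_self] at hcard
  simpa [Fintype.card_sum, Fintype.card_prod, Fintype.card_coe] using hcard


/-- A union bound over pairs. -/
lemma card_filter_exists_le {X : Type*} [Fintype X] {ι : Type*} (F : Finset ι)
    (P : ι → ι → X → Prop) (c : ℝ)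
    (hP : ∀ g ∈ F, ∀ h ∈ F, ∀ s : Finset X, (∀ x ∈ s, P g h x) → (s.card : ℝ) ≤ c)
    (S : Finset X) (hS : ∀ x ∈ S, ∃ g ∈ F, ∃ h ∈ F, P g h x) :
    (S.card : ℝ) ≤ (F.card : ℝ) ^ 2 * c := by
  classical
  have hsub : S ⊆ F.biUnion fun g => F.biUnion fun h => S.filter (P g h) := by
    intro x hx
    obtain ⟨g, hg, h, hh, hp⟩ := hS x hx
    exact Finset.mem_biUnion.mpr ⟨g, hg, Finset.mem_biUnion.mpr ⟨h, hh,
      Finset.mem_filter.mpr ⟨hx, hp⟩⟩⟩
  have h1 : ((F.biUnion fun g => F.biUnion fun h => S.filter (P g h)).card : ℝ) ≤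
      ∑ g ∈ F, ∑ h ∈ F, c := by
    calc ((F.biUnion fun g => F.biUnion fun h => S.filter (P g h)).card : ℝ)
        ≤ ((∑ g ∈ F, (F.biUnion fun h => S.filter (P g h)).card : ℕ) : ℝ) := by
          exact_mod_cast Finset.card_biUnion_le
      _ = ∑ g ∈ F, ((F.biUnion fun h => S.filter (P g h)).card : ℝ) := by push_cast; rfl
      _ ≤ ∑ g ∈ F, ∑ h ∈ F, c := by
        refine Finset.sum_le_sum fun g hg => ?_
        calc ((F.biUnion fun h => S.filter (P g h)).card : ℝ)
            ≤ ((∑ h ∈ F, (S.filter (P g h)).card : ℕ) : ℝ) := by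
              exact_mod_cast Finset.card_biUnion_le
          _ = ∑ h ∈ F, ((S.filter (P g h)).card : ℝ) := by push_cast; rfl
          _ ≤ ∑ h ∈ F, c := Finset.sum_le_sum fun h hh =>
              hP g hg h hh _ (fun x hx => (Finset.mem_filter.mp hx).2)
  calc (S.card : ℝ) ≤ ((F.biUnion fun g => F.biUnion fun h => S.filter (P g h)).card : ℝ) := by
        exact_mod_cast Finset.card_le_card hsub
    _ ≤ ∑ g ∈ F, ∑ h ∈ F, c := h1
    _ = (F.card : ℝ) ^ 2 * c := by
      simp only [Finset.sum_const, nsmul_eq_mul]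
      ring

/-- **Elek–Szabó**, working form: if `Q` has approximations by permutations that are
multiplicative and separating on finite sets up to small proportions, then all matrix rings over
`K[Q]`, `K` a field, are directly finite. -/
theorem matrix_mul_eq_one_symm_of_approx
    (hQ : ∀ (F : Finset Q) (ε : ℝ), 0 < ε → ∃ (m : ℕ) (σ : Q → Equiv.Perm (Fin m)), 0 < m ∧
      (∀ g ∈ F, ∀ h ∈ F,
        ((Finset.univ.filter fun x => σ (g * h) x ≠ σ g (σ h x)).card : ℝ) ≤ ε * m) ∧
      (∀ g ∈ F, ∀ h ∈ F, g ≠ h →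
        ((Finset.univ.filter fun x => σ g x = σ h x).card : ℝ) ≤ ε * m))
    (A B : Matrix (Fin n) (Fin n) (MonoidAlgebra K Q)) (hAB : A * B = 1) : B * A = 1 := by
  classical
  by_contra hBA
  have hAM : A * (1 - B * A) = 0 := by
    rw [mul_sub, mul_one, ← mul_assoc, hAB, one_mul, sub_self]
  obtain ⟨i0, j0, hij⟩ : ∃ i0 j0, (1 - B * A) i0 j0 ≠ 0 := by
    by_contra hno
    push Not at hno
    apply hBA
    have h0 : (1 : Matrix (Fin n) (Fin n) (MonoidAlgebra K Q)) - B * A = 0 := Matrix.ext hno
    exact (sub_eq_zero.mp h0).symm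
  let v : Fin n → MonoidAlgebra K Q := fun i => (1 - B * A) i j0
  have hv : A.mulVec v = 0 := by
    funext i
    exact congrFun (congrFun hAM i) j0
  obtain ⟨g0, hg0⟩ : ∃ g0, g0 ∈ (v i0).coeff.support := by
    by_contra hempty
    apply hij
    ext s
    by_contra hs
    exact hempty ⟨s, Finsupp.mem_support_iff.mpr hs⟩
  let F : Finset Q := insert 1
    ((Finset.univ.biUnion fun i => Finset.univ.biUnion fun j => (A i j).coeff.support) ∪
     (Finset.univ.biUnion fun i => Finset.univ.biUnion fun j => (B i j).coeff.support) ∪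
     (Finset.univ.biUnion fun i => (v i).coeff.support))
  have hF1 : (1 : Q) ∈ F := Finset.mem_insert_self _ _
  have hFA : ∀ i j, (A i j).coeff.support ⊆ F := by
    intro i j g hg
    refine Finset.mem_insert_of_mem (Finset.mem_union_left _ (Finset.mem_union_left _ ?_))
    exact Finset.mem_biUnion.mpr ⟨i, Finset.mem_univ _,
      Finset.mem_biUnion.mpr ⟨j, Finset.mem_univ _, hg⟩⟩
  have hFB : ∀ i j, (B i j).coeff.support ⊆ F := by
    intro i j g hg
    refine Finset.mem_insert_of_mem (Finset.mem_union_left _ (Finset.mem_union_right _ ?_))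
    exact Finset.mem_biUnion.mpr ⟨i, Finset.mem_univ _,
      Finset.mem_biUnion.mpr ⟨j, Finset.mem_univ _, hg⟩⟩
  have hFv : ∀ i, (v i).coeff.support ⊆ F := by
    intro i g hg
    refine Finset.mem_insert_of_mem (Finset.mem_union_right _ ?_)
    exact Finset.mem_biUnion.mpr ⟨i, Finset.mem_univ _, hg⟩
  have hfpos : 0 < F.card := Finset.card_pos.mpr ⟨1, hF1⟩
  obtain ⟨D, hD⟩ : ∃ D : ℝ, D = (n : ℝ) * (F.card : ℝ) ^ 4 + 2 * (F.card : ℝ) ^ 2 := ⟨_, rfl⟩
  have hDnn : 0 ≤ D := by rw [hD]; positivity
  obtain ⟨m, σ, hm, hmult, hsep⟩ := hQ F (1 / (D + 1)) (by positivity)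
  obtain ⟨E, hE⟩ : ∃ E : ℝ, E = 1 / (D + 1) * (m : ℝ) := ⟨_, rfl⟩
  rw [← hE] at hmult hsep
  have hmpos : (0 : ℝ) < m := by exact_mod_cast hm
  have hEpos : 0 < E := by rw [hE]; positivity
  have hED : E * (D + 1) = m := by rw [hE]; field_simp
  let Mult : Fin m → Prop := fun x => ∀ g ∈ F, ∀ h ∈ F, σ (g * h) x = σ g (σ h x)
  let Sep : Fin m → Prop := fun x => ∀ g ∈ F, ∀ h ∈ F, g ≠ h → σ g x ≠ σ h x
  let Good : Finset (Fin m) := Finset.univ.filter Mult
  let Bad1 : Finset (Fin m) := Finset.univ.filter fun x => ¬ Mult x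
  let Bad2 : Finset (Fin m) := Finset.univ.filter fun x => ¬ Sep x
  let W : Finset (Fin m) := Finset.univ.filter fun x => Mult x ∧ Sep x
  have hB1 : (Bad1.card : ℝ) ≤ (F.card : ℝ) ^ 2 * E := by
    refine card_filter_exists_le F (fun g h x => σ (g * h) x ≠ σ g (σ h x)) E ?_ Bad1 ?_
    · intro g hg h hh s hs
      refine le_trans ?_ (hmult g hg h hh)
      exact_mod_cast Finset.card_le_card (fun x hx =>
        Finset.mem_filter.mpr ⟨Finset.mem_univ _, hs x hx⟩)
    · intro x hx
      have hx' : ¬ Mult x := (Finset.mem_filter.mp hx).2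
      simp only [Mult] at hx'
      push Not at hx'
      exact hx'
  have hB2 : (Bad2.card : ℝ) ≤ (F.card : ℝ) ^ 2 * E := by
    refine card_filter_exists_le F (fun g h x => g ≠ h ∧ σ g x = σ h x) E ?_ Bad2 ?_
    · intro g hg h hh s hs
      by_cases hgh : g = h
      · have hs0 : s = ∅ := by
          apply Finset.eq_empty_of_forall_notMem
          intro x hx
          exact (hs x hx).1 hgh
        rw [hs0, Finset.card_empty, Nat.cast_zero]
        exact hEpos.le
      · refine le_trans ?_ (hsep g hg h hh hgh)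
        exact_mod_cast Finset.card_le_card (fun x hx =>
          Finset.mem_filter.mpr ⟨Finset.mem_univ _, (hs x hx).2⟩)
    · intro x hx
      have hx' : ¬ Sep x := (Finset.mem_filter.mp hx).2
      simp only [Sep] at hx'
      push Not at hx'
      exact hx'
  have hGB : (Good.card : ℝ) + Bad1.card = m := by
    have h := Finset.card_filter_add_card_filter_not (s := (Finset.univ : Finset (Fin m))) Mult
    have h' : Good.card + Bad1.card = m := by simpa using h
    exact_mod_cast h'
  have hWB : (m : ℝ) ≤ W.card + Bad1.card + Bad2.card := by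
    have hsub : (Finset.univ : Finset (Fin m)) ⊆ W ∪ Bad1 ∪ Bad2 := by
      intro x _
      by_cases h1 : Mult x
      · by_cases h2 : Sep x
        · exact Finset.mem_union_left _ (Finset.mem_union_left _
            (Finset.mem_filter.mpr ⟨Finset.mem_univ _, h1, h2⟩))
        · exact Finset.mem_union_right _ (Finset.mem_filter.mpr ⟨Finset.mem_univ _, h2⟩)
      · exact Finset.mem_union_left _ (Finset.mem_union_right _
          (Finset.mem_filter.mpr ⟨Finset.mem_univ _, h1⟩))
    have h := Finset.card_le_card hsub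
    have h2 := Finset.card_union_le (W ∪ Bad1) Bad2
    have h3 := Finset.card_union_le W Bad1
    have h4 : m ≤ W.card + Bad1.card + Bad2.card := by
      simp only [Finset.card_univ, Fintype.card_fin] at h
      omega
    exact_mod_cast h4
  let O : Fin m → Finset (Fin m) := fun x => F.image fun g => σ g x
  have hself : ∀ x, (O x).Nonempty := fun x => ⟨σ 1 x, Finset.mem_image.mpr ⟨1, hF1, rfl⟩⟩
  have hdeg : ∀ x ∈ W, (W.filter fun x' => ¬ Disjoint (O x) (O x')).card ≤ F.card * F.card := by
    intro x _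
    have hsub : (W.filter fun x' => ¬ Disjoint (O x) (O x')) ⊆
        (F ×ˢ F).image fun q => (σ q.2).symm (σ q.1 x) := by
      intro x' hx'
      obtain ⟨a, ha, ha'⟩ := Finset.not_disjoint_iff.mp (Finset.mem_filter.mp hx').2
      obtain ⟨g, hg, rfl⟩ := Finset.mem_image.mp ha
      obtain ⟨g', hg', hgg⟩ := Finset.mem_image.mp ha'
      refine Finset.mem_image.mpr ⟨(g, g'), Finset.mem_product.mpr ⟨hg, hg'⟩, ?_⟩
      change (σ g').symm (σ g x) = x'
      rw [Equiv.symm_apply_eq]
      exact hgg.symm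
    refine le_trans (Finset.card_le_card hsub) (le_trans Finset.card_image_le ?_)
    rw [Finset.card_product]
  obtain ⟨Y, hYW, hYdis, hWY⟩ := exists_disjoint_subfamily O (F.card * F.card) hself W hdeg
  have hcore := sofic_core A B hAB v hv i0 g0 hg0 F hFA hFB hFv σ Good Y
    (fun x hx => (Finset.mem_filter.mp hx).2)
    (fun y hy => (Finset.mem_filter.mp (hYW hy)).2.1)
    (fun y hy => (Finset.mem_filter.mp (hYW hy)).2.2)
    hYdis
  have hcore' : (n : ℝ) * Good.card + Y.card ≤ n * m := by exact_mod_cast hcore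
  have hWY' : (W.card : ℝ) ≤ Y.card * ((F.card : ℝ) * F.card) := by exact_mod_cast hWY
  have hnn : (0 : ℝ) ≤ n := Nat.cast_nonneg n
  have hfnn : (0 : ℝ) ≤ (F.card : ℝ) * F.card := by positivity
  have hY1 : (Y.card : ℝ) ≤ n * Bad1.card := by
    have h : (n : ℝ) * Good.card + n * Bad1.card = n * m := by rw [← mul_add, hGB]
    linarith
  have hY2 : (Y.card : ℝ) ≤ n * ((F.card : ℝ) ^ 2 * E) :=
    le_trans hY1 (mul_le_mul_of_nonneg_left hB1 hnn)
  have hW2 : (W.card : ℝ) ≤ n * ((F.card : ℝ) ^ 2 * E) * ((F.card : ℝ) * F.card) :=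
    le_trans hWY' (mul_le_mul_of_nonneg_right hY2 hfnn)
  have hfin : D * E = n * ((F.card : ℝ) ^ 2 * E) * ((F.card : ℝ) * F.card) +
      (F.card : ℝ) ^ 2 * E + (F.card : ℝ) ^ 2 * E := by rw [hD]; ring
  have hED' : E * D + E = m := by rw [← hED]; ring
  linarith

end Vector

end Vale.Agent.Lib.P194
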